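import Crest.Agent.R271.Montel_297
import Crest.Agent.R271.L0_934
import Crest.Agent.R271.Engine_51
import Crest.Agent.R271.BallSolver_399
import Crest.Agent.R275.Loc2C_879
import Crest.Agent.X261.Psh.Reg
import Crest.Agent.R273.RegA_844

-- ▼ part X261/Wand/Lim
section

/-!
# Row 261, package WAND (helper57), file `Lim`

Sequential Montel theorem from an `L²` bound, Fatou's lemma with moving weights, and the
vanishing of a continuous function that is square integrable against a pole of order `2n`.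
-/

set_option autoImplicit false

open Set Filter Topology MeasureTheory Metric
open scoped ENNReal

noncomputable section

namespace Crest.Agent.X261.Wand.Lim

open Crest.Agent.R271

variable {n : ℕ}

/-- sequential Montel theorem on a polydisc -/
theorem seq_montel {r : ℝ} {F : ℕ → (Fin n → ℂ) → ℂ}
    (hF : ∀ j, DifferentiableOn ℂ (F j) (ball 0 r)) {K : ℝ≥0∞} (hK : K ≠ ⊤)
    (hb : ∀ᶠ j in atTop, ∫⁻ y in ball (0 : Fin n → ℂ) r, ‖F j y‖ₑ ^ 2 ≤ K) :
    ∃ (J : ℕ → ℕ) (F0 : (Fin n → ℂ) → ℂ), Tendsto J atTop atTop ∧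
      DifferentiableOn ℂ F0 (ball 0 r) ∧
      ∀ y ∈ ball (0 : Fin n → ℂ) r, Tendsto (fun m => F (J m) y) atTop (𝓝 (F0 y)) := by
  have hle : (hyperfilter ℕ : Filter ℕ) ≤ atTop := by
    rw [← Nat.cofinite_eq_atTop]
    exact hyperfilter_le_cofinite
  obtain ⟨F0, hF0, hlim⟩ := Montel297.montel_L2 (ball 0 r) isOpen_ball F hF K hK
    (hyperfilter ℕ) (hle hb)
  have hsub : ∀ m : ℕ, ∃ j : ℕ, m ≤ j ∧ ∀ y ∈ closedBall (0 : Fin n → ℂ) (r - 1 / ((m : ℝ) + 1)),
      dist (F0 y) (F j y) < 1 / ((m : ℝ) + 1) := by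
    intro m
    have h0 : (0 : ℝ) < 1 / ((m : ℝ) + 1) := by positivity
    have h1 : TendstoUniformlyOn F F0 (hyperfilter ℕ : Filter ℕ)
        (closedBall 0 (r - 1 / ((m : ℝ) + 1))) :=
      (tendstoLocallyUniformlyOn_iff_tendstoUniformlyOn_of_compact (isCompact_closedBall _ _)).1
        (hlim.mono (closedBall_subset_ball (by linarith)))
    have h2 := (Metric.tendstoUniformlyOn_iff.1 h1) _ h0
    have h3 : ∀ᶠ j in (hyperfilter ℕ : Filter ℕ), m ≤ j := hle (eventually_ge_atTop m)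
    obtain ⟨j, hj1, hj2⟩ := (h3.and h2).exists
    exact ⟨j, hj1, hj2⟩
  choose J hJ1 hJ2 using hsub
  refine ⟨J, F0, tendsto_atTop_mono hJ1 tendsto_id, hF0, fun y hy => ?_⟩
  rw [tendsto_iff_dist_tendsto_zero]
  refine squeeze_zero' (Eventually.of_forall fun _ => dist_nonneg) ?_
    tendsto_one_div_add_atTop_nhds_zero_nat
  have hy' : 0 < r - ‖y‖ := by rw [mem_ball_zero_iff] at hy; linarith
  filter_upwards [(tendsto_one_div_add_atTop_nhds_zero_nat (𝕜 := ℝ)).eventually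
    (gt_mem_nhds hy')] with m hm
  rw [dist_comm]
  exact (hJ2 m y (mem_closedBall_zero_iff.2 (by linarith))).le

theorem mul_le_liminf {a W : ℕ → ℝ≥0∞} {a0 W0 : ℝ≥0∞} (ha : Tendsto a atTop (𝓝 a0))
    (hW : ∀ c < W0, ∀ᶠ m in atTop, c ≤ W m) : a0 * W0 ≤ liminf (fun m => a m * W m) atTop := by
  refine ENNReal.mul_le_of_forall_lt fun b hb c hc => ?_
  refine le_liminf_of_le (by isBoundedDefault) ?_
  filter_upwards [ha.eventually (lt_mem_nhds hb), hW c hc] with m h1 h2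
  exact mul_le_mul' h1.le h2

/-- Fatou's lemma with moving weights -/
theorem fatou {α : Type*} [MeasurableSpace α] {ν : Measure α} {u : ℕ → α → ℂ} {u0 : α → ℂ}
    {W : ℕ → α → ℝ≥0∞} {W0 : α → ℝ≥0∞} (hu : ∀ m, AEMeasurable (u m) ν)
    (hW : ∀ m, AEMeasurable (W m) ν)
    (h1 : ∀ᵐ y ∂ν, Tendsto (fun m => u m y) atTop (𝓝 (u0 y)))
    (h2 : ∀ᵐ y ∂ν, ∀ c < W0 y, ∀ᶠ m in atTop, c ≤ W m y) {L : ℝ≥0∞}
    (hb : ∀ L', L < L' → ∀ᶠ m in atTop, ∫⁻ y, ‖u m y‖ₑ ^ 2 * W m y ∂ν ≤ L') :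
    ∫⁻ y, ‖u0 y‖ₑ ^ 2 * W0 y ∂ν ≤ L := by
  refine le_of_forall_gt_imp_ge_of_dense fun L' hL' => ?_
  calc ∫⁻ y, ‖u0 y‖ₑ ^ 2 * W0 y ∂ν
      ≤ ∫⁻ y, liminf (fun m => ‖u m y‖ₑ ^ 2 * W m y) atTop ∂ν := by
        refine lintegral_mono_ae ?_
        filter_upwards [h1, h2] with y hy1 hy2
        exact mul_le_liminf (ENNReal.Tendsto.pow hy1.enorm) hy2
    _ ≤ liminf (fun m => ∫⁻ y, ‖u m y‖ₑ ^ 2 * W m y ∂ν) atTop :=
        lintegral_liminf_le' fun m => ((hu m).enorm.pow_const 2).mul (hW m)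
    _ ≤ L' := liminf_le_of_frequently_le' (hb L' hL').frequently

theorem finrank_real : Module.finrank ℝ (Fin n → ℂ) = 2 * n := by
  rw [Module.finrank_pi_fintype]
  simp [Complex.finrank_real_complex, mul_comm]

/-- a continuous function square integrable against `‖y - x‖ ^ (-2n)` vanishes at `x` -/
theorem eq_zero_of_pole (hn : 0 < n) {u : (Fin n → ℂ) → ℂ} {x : Fin n → ℂ}
    (hu : ContinuousAt u x) {S : Set (Fin n → ℂ)} (hS : S ∈ 𝓝 x) {W : (Fin n → ℂ) → ℝ≥0∞}
    {C : ℝ} (hW : ∀ᶠ y in 𝓝[≠] x,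
      ENNReal.ofReal (Real.exp (-(2 * n * Real.log ‖y - x‖ + C))) ≤ W y)
    (hfin : ∫⁻ y in S, ‖u y‖ₑ ^ 2 * W y < ∞) : u x = 0 := by
  by_contra h0
  have hpos : 0 < ‖u x‖ / 2 := by positivity
  have h1 : ∀ᶠ y in 𝓝 x, ‖u x‖ / 2 < ‖u y‖ :=
    hu.norm.eventually (lt_mem_nhds (by linarith))
  obtain ⟨δ, hδ, hδ'⟩ := Metric.mem_nhds_iff.1
    (inter_mem (inter_mem hS h1) (eventually_nhdsWithin_iff.1 hW))
  have : Nonempty (Fin n) := ⟨⟨0, hn⟩⟩
  set c : ℝ≥0∞ := ENNReal.ofReal ((‖u x‖ / 2) ^ 2 * Real.exp (-C)) with hc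
  have hc0 : c ≠ 0 := (ENNReal.ofReal_pos.2 (by positivity)).ne'
  set P : (Fin n → ℂ) → ℝ≥0∞ := fun y =>
    (ENNReal.ofReal ‖y‖) ^ (-(Module.finrank ℝ (Fin n → ℂ) : ℝ)) with hP
  have h2 : ∫⁻ y in ball (0 : Fin n → ℂ) δ, P y = ∞ :=
    L934.lintegral_ball_norm_eq_top volume (by rw [finrank_real]; omega) hδ
  have h3 : ∫⁻ y in ball x δ, P (y - x) = ∫⁻ y in ball (0 : Fin n → ℂ) δ, P y := by
    have := (measurePreserving_add_right (volume : Measure (Fin n → ℂ)) x).setLIntegral_comp_emb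
      (Homeomorph.addRight x).measurableEmbedding (fun y => P (y - x)) (ball 0 δ)
    simp only [add_sub_cancel_right] at this
    rw [this]
    congr 2
    ext y
    simp
  have h4 : ∫⁻ y in ball x δ, c * P (y - x) ≤ ∫⁻ y in ball x δ, ‖u y‖ₑ ^ 2 * W y := by
    refine lintegral_mono_ae ?_
    filter_upwards [ae_restrict_mem measurableSet_ball,
      ae_restrict_of_ae (compl_mem_ae_iff.2 (measure_singleton x))] with y hy hyx
    obtain ⟨⟨-, hy1⟩, hy2⟩ := hδ' hy
    have hy3 : 0 < ‖y - x‖ := norm_pos_iff.2 (sub_ne_zero.2 hyx)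
    have e1 : P (y - x) = ENNReal.ofReal (Real.exp (-(2 * n * Real.log ‖y - x‖))) := by
      rw [hP]
      simp only
      rw [ENNReal.ofReal_rpow_of_pos hy3, Real.rpow_def_of_pos hy3, finrank_real]
      congr 2
      push_cast
      ring
    have e2 : ENNReal.ofReal ((‖u x‖ / 2) ^ 2) ≤ ‖u y‖ₑ ^ 2 := by
      rw [ENNReal.ofReal_pow hpos.le, ← ofReal_norm]
      gcongr
      exact le_of_lt hy1
    refine le_trans (le_of_eq ?_) (mul_le_mul' e2 (hy2 hyx))
    rw [e1, hc, ← ENNReal.ofReal_mul (by positivity), ← ENNReal.ofReal_mul (by positivity),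
      mul_assoc, ← Real.exp_add]
    congr 3
    ring
  rw [lintegral_const_mul' _ _ ENNReal.ofReal_ne_top, h3, h2, ENNReal.mul_top hc0] at h4
  have h5 := (h4.trans (lintegral_mono_set fun y hy => (hδ' hy).1.1)).trans_lt hfin
  exact lt_irrefl _ h5

theorem enorm_add_sq_le (a b : ℂ) : ‖a + b‖ₑ ^ 2 ≤ 2 * ‖a‖ₑ ^ 2 + 2 * ‖b‖ₑ ^ 2 := by
  have h : ‖a + b‖ ^ 2 ≤ 2 * ‖a‖ ^ 2 + 2 * ‖b‖ ^ 2 := by
    have h1 := norm_add_le a b
    have h2 : ‖a + b‖ ^ 2 ≤ (‖a‖ + ‖b‖) ^ 2 := by gcongr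
    nlinarith [sq_nonneg (‖a‖ - ‖b‖)]
  have e : ∀ c : ℂ, ‖c‖ₑ ^ 2 = ENNReal.ofReal (‖c‖ ^ 2) := fun c => by
    rw [ENNReal.ofReal_pow (norm_nonneg _), ofReal_norm]
  rw [e, e, e]
  refine (ENNReal.ofReal_le_ofReal h).trans (le_of_eq ?_)
  rw [ENNReal.ofReal_add (by positivity) (by positivity), ENNReal.ofReal_mul (by norm_num),
    ENNReal.ofReal_mul (by norm_num)]
  simp

theorem enorm_sq_eq (c : ℂ) : ‖c‖ₑ ^ 2 = ENNReal.ofReal (‖c‖ ^ 2) := by
  rw [ENNReal.ofReal_pow (norm_nonneg _), ofReal_norm]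

end Crest.Agent.X261.Wand.Lim
end
end

-- ▼ part X261/Wand/Solve
section

/-!
# Row 261, package WAND (helper57), file `Solve`

Hörmander's estimate on a polydisc for the weight `f + κ (g - f)`, `κ t = t/2 + log (1 + e^t)/2`,
and the datum `∂̄ (θ (g - f) h)`, for smooth plurisubharmonic `f`, `g`.
-/

set_option autoImplicit false

open Set Filter Topology MeasureTheory Metric ComplexConjugate
open scoped ENNReal

noncomputable section

namespace Crest.Agent.X261.Wand.Solve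

open Crest.Agent.R271 Crest.Agent.R271.Ho51 Crest.Agent.R271.Ball399

/-- the convex function -/
def kap (t : ℝ) : ℝ := t / 2 + Real.log (1 + Real.exp t) / 2

/-- its first derivative -/
def k1 (t : ℝ) : ℝ := 1 / 2 + Real.exp t / (1 + Real.exp t) / 2

/-- its second derivative -/
def k2 (t : ℝ) : ℝ := Real.exp t / (1 + Real.exp t) ^ 2 / 2

theorem pos1 (t : ℝ) : 0 < 1 + Real.exp t := by positivity

theorem contDiff_kap : ContDiff ℝ (⊤ : ℕ∞) kap :=
  (contDiff_id.div_const 2).add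
    (((contDiff_const.add Real.contDiff_exp).log fun t => (pos1 t).ne').div_const 2)

theorem hasDerivAt_kap (t : ℝ) : HasDerivAt kap (k1 t) t :=
  ((hasDerivAt_id t).div_const 2).add
    ((((Real.hasDerivAt_exp t).const_add 1).log (pos1 t).ne').div_const 2)

theorem hasDerivAt_k1 (t : ℝ) : HasDerivAt k1 (k2 t) t := by
  have h := ((((Real.hasDerivAt_exp t).div ((Real.hasDerivAt_exp t).const_add 1)
    (pos1 t).ne').div_const 2).const_add (1 / 2))
  refine h.congr_deriv ?_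
  unfold k2
  have := pos1 t
  field_simp
  ring

theorem deriv_kap : deriv kap = k1 := funext fun t => (hasDerivAt_kap t).deriv

theorem deriv_k1 : deriv k1 = k2 := funext fun t => (hasDerivAt_k1 t).deriv

theorem k1_nonneg (t : ℝ) : 0 ≤ k1 t := by unfold k1; positivity

theorem k1_le (t : ℝ) : k1 t ≤ 1 := by
  unfold k1
  have : Real.exp t / (1 + Real.exp t) ≤ 1 := (div_le_one (pos1 t)).2 (by linarith)
  linarith

theorem k2_pos (t : ℝ) : 0 < k2 t := by unfold k2; positivity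

theorem continuous_k2 : Continuous k2 :=
  (Real.continuous_exp.div ((continuous_const.add Real.continuous_exp).pow 2)
    fun t => (pow_pos (pos1 t) 2).ne').div_const 2


theorem half_le_kap (t : ℝ) : t / 2 ≤ kap t := by
  unfold kap
  have : 0 ≤ Real.log (1 + Real.exp t) := Real.log_nonneg (by linarith [Real.exp_pos t])
  linarith

theorem add_kap_eq (a b : ℝ) :
    a + kap (b - a) = b / 2 + Real.log (Real.exp a + Real.exp b) / 2 := by
  have : Real.exp a + Real.exp b = Real.exp a * (1 + Real.exp (b - a)) := by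
    rw [mul_add, mul_one, ← Real.exp_add]; congr 2; ring
  rw [this, Real.log_mul (Real.exp_pos a).ne' (pos1 _).ne', Real.log_exp, kap]
  ring

theorem add_kap_mono {a b a' b' : ℝ} (ha : a ≤ a') (hb : b ≤ b') :
    a + kap (b - a) ≤ a' + kap (b' - a') := by
  rw [add_kap_eq, add_kap_eq]
  have : Real.log (Real.exp a + Real.exp b) ≤ Real.log (Real.exp a' + Real.exp b') :=
    Real.log_le_log (by positivity) (by gcongr)
  linarith

theorem add_kap_le {a b M : ℝ} (ha : a ≤ M) (hb : b ≤ M) :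
    a + kap (b - a) ≤ b / 2 + (M + 1) / 2 := by
  rw [add_kap_eq]
  have h1 : Real.exp a + Real.exp b ≤ Real.exp (M + 1) := by
    have h2 : Real.exp a ≤ Real.exp M := Real.exp_le_exp.2 ha
    have h3 : Real.exp b ≤ Real.exp M := Real.exp_le_exp.2 hb
    have h4 : (2 : ℝ) ≤ Real.exp 1 := by linarith [Real.add_one_le_exp 1]
    rw [Real.exp_add]
    nlinarith [Real.exp_pos M]
  have := Real.log_le_log (by positivity) h1
  rw [Real.log_exp] at this
  linarith

section rdom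

variable {n : ℕ} {M : Type*} [TopologicalSpace M] [RDom n M]

theorem levi_kap {f g : M → ℝ} (hf : Sm f) (hg : Sm g) {x : M} {w : Fin n → ℂ}
    (h1 : 0 ≤ Levi f x w) (h2 : 0 ≤ Levi g x w) :
    k2 (g x - f x) * ‖∑ j, dz j (fun y => ((g y - f y : ℝ) : ℂ)) x * w j‖ ^ 2 ≤
      Levi (fun y => f y + kap (g y - f y)) x w := by
  have hF : Sm fun y => g y - f y := hg.sub hf
  have e1 := Levi_add hF hf x w
  simp only [sub_add_cancel] at e1
  rw [Levi_add hf (Sm.comp contDiff_kap hF), Levi_comp hF contDiff_kap, deriv_kap, deriv_k1]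
  have e2 : Levi (fun y => g y - f y) x w = Levi g x w - Levi f x w := by
    have : Levi (fun y => g y) x w = Levi g x w := rfl
    linarith
  rw [e2]
  have h3 := k1_nonneg (g x - f x)
  have h4 := k1_le (g x - f x)
  nlinarith [mul_nonneg h3 h2, mul_nonneg (sub_nonneg.2 h4) h1]

theorem db_data {F : M → ℝ} (hF : Sm F) {θ : ℝ → ℝ} (hθ : ContDiff ℝ (⊤ : ℕ∞) θ) {h : M → ℂ}
    (hh : Sm h) {x : M} (hh' : ∀ j, db j h x = 0) (w : Fin n → ℂ) :
    ‖∑ j, db j (fun y => ((θ (F y) : ℝ) : ℂ) * h y) x * conj (w j)‖ ^ 2 =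
      deriv θ (F x) ^ 2 * ‖h x‖ ^ 2 * ‖∑ j, dz j (fun y => (F y : ℂ)) x * w j‖ ^ 2 := by
  have hθF : Sm fun y => θ (F y) := Sm.comp hθ hF
  have hd : HasDerivAt θ (deriv θ (F x)) (F x) := (hθ.differentiable (by simp) _).hasDerivAt
  have e : ∑ j, db j (fun y => ((θ (F y) : ℝ) : ℂ) * h y) x * conj (w j) =
      ((deriv θ (F x) : ℝ) : ℂ) * h x * conj (∑ j, dz j (fun y => (F y : ℂ)) x * w j) := by
    rw [map_sum, Finset.mul_sum]
    refine Finset.sum_congr rfl fun j _ => ?_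
    rw [db_mul hθF.ofReal hh, hh', db_comp_real hF hθF x hd, db_ofReal hF, map_mul]
    ring
  rw [e, norm_mul, norm_mul, RCLike.norm_conj, Complex.norm_real, mul_pow, mul_pow,
    Real.norm_eq_abs, sq_abs]

end rdom

variable {n : ℕ} {r : ℝ}

theorem contDiffOn_of_hol {h : (Fin n → ℂ) → ℂ} (hh : DifferentiableOn ℂ h (ball 0 r)) :
    ContDiffOn ℝ (⊤ : ℕ∞) h (ball 0 r) :=
  ((R266.SCV.analyticOnNhd_of_differentiableOn isOpen_ball hh).contDiffOn
    isOpen_ball.uniqueDiffOn).restrict_scalars ℝ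

theorem dbar0_of_hol {h : (Fin n → ℂ) → ℂ} {z : Fin n → ℂ} (hh : DifferentiableAt ℂ h z)
    (j : Fin n) : dbar0 j h z = 0 := by
  have e : (Pi.single j Complex.I : Fin n → ℂ) = Complex.I • Pi.single j 1 := by
    rw [← Pi.single_smul', smul_eq_mul, mul_one]
  rw [dbar0, e, R266.SCV.fderiv_real_smul_I hh, smul_eq_mul, ← mul_assoc, Complex.I_mul_I]
  ring

/-- smooth plurisubharmonic functions on the polydisc -/
structure SP (r : ℝ) (f : (Fin n → ℂ) → ℝ) : Prop where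
  sm : ContDiffOn ℝ (⊤ : ℕ∞) f (ball 0 r)
  lev : ∀ z ∈ ball (0 : Fin n → ℂ) r, ∀ w, 0 ≤ lev0 f z w

theorem exists_const {θ : ℝ → ℝ} (hθ : ContDiff ℝ (⊤ : ℕ∞) θ)
    (hθ' : ∀ t, t ∉ Icc (0 : ℝ) 1 → deriv θ t = 0) :
    ∃ Q : ℝ, 0 ≤ Q ∧ ∀ t, deriv θ t ^ 2 / k2 t * Real.exp (-kap t) ≤ if t ≤ 1 then Q else 0 := by
  have hc : Continuous fun t => deriv θ t ^ 2 / k2 t * Real.exp (-kap t) :=
    (((hθ.continuous_deriv (by simp)).pow 2).div continuous_k2 fun t => (k2_pos t).ne').mul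
      (Real.continuous_exp.comp contDiff_kap.continuous.neg)
  obtain ⟨Q, hQ⟩ := (isCompact_Icc (a := (0 : ℝ)) (b := 1)).bddAbove_image hc.continuousOn
  refine ⟨max Q 0, le_max_right _ _, fun t => ?_⟩
  by_cases ht : t ∈ Icc (0 : ℝ) 1
  · rw [if_pos ht.2]
    exact (hQ (mem_image_of_mem _ ht)).trans (le_max_left _ _)
  · rw [hθ' t ht]
    split_ifs <;> simp

/-- Hörmander's estimate for the datum `∂̄ (θ (g - f) h)` -/
theorem solve {θ : ℝ → ℝ} (hθ : ContDiff ℝ (⊤ : ℕ∞) θ) {Q : ℝ}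
    (hQ : ∀ t, deriv θ t ^ 2 / k2 t * Real.exp (-kap t) ≤ if t ≤ 1 then Q else 0)
    (hr : 0 < r) {f g : (Fin n → ℂ) → ℝ} (hf : SP r f) (hg : SP r g) {h : (Fin n → ℂ) → ℂ}
    (hh : DifferentiableOn ℂ h (ball 0 r)) :
    ∃ V : (Fin n → ℂ) → ℂ, DifferentiableOn ℂ V (ball 0 r) ∧
      ∫⁻ z in ball (0 : Fin n → ℂ) r, ‖V z - θ (g z - f z) * h z‖ₑ ^ 2 *
        ENNReal.ofReal (Real.exp (-(f z + kap (g z - f z)))) ≤
      2 * ∫⁻ z in ball (0 : Fin n → ℂ) r, ENNReal.ofReal (if g z - f z ≤ 1 then Q else 0) *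
        (‖h z‖ₑ ^ 2 * ENNReal.ofReal (Real.exp (-f z))) := by
  have hF : ContDiffOn ℝ (⊤ : ℕ∞) (fun z => g z - f z) (ball 0 r) := hg.sm.sub hf.sm
  have hψ : ContDiffOn ℝ (⊤ : ℕ∞) (fun z => f z + kap (g z - f z)) (ball 0 r) :=
    hf.sm.add (contDiff_kap.comp_contDiffOn hF)
  have hhs := contDiffOn_of_hol hh
  have hG : ContDiffOn ℝ (⊤ : ℕ∞) (fun z => ((θ (g z - f z) : ℝ) : ℂ) * h z) (ball 0 r) :=
    (Complex.ofRealCLM.contDiff.comp_contDiffOn (hθ.comp_contDiffOn hF)).mul hhs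
  have key : ∀ (x : Bl n r) (w : Fin n → ℂ), k2 (g x.val - f x.val) *
      ‖∑ j, dz j (fun y : Bl n r => ((g y.val - f y.val : ℝ) : ℂ)) x * w j‖ ^ 2 ≤
      lev0 (fun z => f z + kap (g z - f z)) x.val w := by
    intro x w
    rw [← Levi_restrict hψ]
    exact levi_kap (Sm_restrict hf.sm) (Sm_restrict hg.sm)
      (by rw [Levi_restrict hf.sm]; exact hf.lev _ x.2 w)
      (by rw [Levi_restrict hg.sm]; exact hg.lev _ x.2 w)
  obtain ⟨V, hV, hb⟩ := solver engineP hr hψ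
    (fun z hz w => le_trans (mul_nonneg (k2_pos _).le (by positivity)) (key ⟨z, hz⟩ w)) hG
    (kap := fun z => deriv θ (g z - f z) ^ 2 / k2 (g z - f z) * ‖h z‖ ^ 2) (fun z hz w => by
      have e := db_data (Sm_restrict hF) hθ (Sm_restrict hhs) (x := ⟨z, hz⟩)
        (fun j => by
          rw [db_restrict]
          exact dbar0_of_hol (hh.differentiableAt (isOpen_ball.mem_nhds hz)) j) w
      have e2 : ∀ j, db j (fun y : Bl n r => ((θ (g y.val - f y.val) : ℝ) : ℂ) * h y.val)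
          ⟨z, hz⟩ = dbar0 j (fun z => ((θ (g z - f z) : ℝ) : ℂ) * h z) z := fun j =>
        db_restrict j (fun z => ((θ (g z - f z) : ℝ) : ℂ) * h z) ⟨z, hz⟩
      simp only [e2] at e
      rw [e]
      have h1 := key ⟨z, hz⟩ w
      have h2 := k2_pos (g z - f z)
      refine le_trans (le_of_eq ?_) (mul_le_mul_of_nonneg_left h1 (by positivity))
      simp only
      field_simp)
  refine ⟨V, hV, le_trans (le_of_eq ?_) (hb.trans ?_)⟩
  · refine lintegral_congr fun z => ?_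
    rw [Lim.enorm_sq_eq, ENNReal.ofReal_mul (by positivity)]
  · refine mul_le_mul_right (lintegral_mono fun z => ?_) _
    have h0 : 0 ≤ if g z - f z ≤ 1 then Q else 0 :=
      le_trans (mul_nonneg (div_nonneg (sq_nonneg _) (k2_pos _).le) (Real.exp_pos _).le) (hQ _)
    rw [Lim.enorm_sq_eq, ← ENNReal.ofReal_mul (by positivity), ← ENNReal.ofReal_mul h0]
    refine ENNReal.ofReal_le_ofReal ?_
    refine le_trans (le_of_eq ?_) (mul_le_mul_of_nonneg_right (hQ (g z - f z)) (by positivity))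
    rw [neg_add, Real.exp_add]
    ring

end Crest.Agent.X261.Wand.Solve
end
end

-- ▼ part X261/Wand/Step
section

/-!
# Row 261, package WAND (helper57), file `Step`

`step` : for singular weights `G ≤ φ + C` with smooth psh approximants on a polydisc and a
holomorphic `h`, there is a holomorphic `V` whose `φ`-norm is controlled by the norm of `h` on
`{G < φ + 2}` and which agrees with `h` at the poles of `G`.
-/

set_option autoImplicit false

open Set Filter Topology MeasureTheory Metric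
open scoped ENNReal

noncomputable section

namespace Crest.Agent.X261.Wand.Step

open Crest.Agent.X261.Wand.Solve Crest.Agent.X261.Wand.Lim

variable {n : ℕ}

/-- Lebesgue measure on the polydisc -/
abbrev vb (n : ℕ) (r : ℝ) : Measure (Fin n → ℂ) := volume.restrict (ball 0 r)

/-- smooth psh approximants from above -/
structure Apx (r : ℝ) (u : (Fin n → ℂ) → EReal) (f : ℕ → (Fin n → ℂ) → ℝ) : Prop where
  sp : ∀ j, SP r (f j)
  bdd : ∃ M : ℝ, ∀ j, ∀ z ∈ ball (0 : Fin n → ℂ) r, f j z ≤ M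
  le : ∀ᵐ z ∂vb n r, ∀ j, u z ≤ f j z
  lim : ∀ᵐ z ∂vb n r, ∀ t : ℝ, u z < t → ∀ᶠ j in atTop, f j z < t

/-- `e^{-t}` -/
def ex (t : ℝ) : ℝ≥0∞ := ENNReal.ofReal (Real.exp (-t))

theorem ex_anti {s t : ℝ} (h : s ≤ t) : ex t ≤ ex s :=
  ENNReal.ofReal_le_ofReal (Real.exp_le_exp.2 (neg_le_neg h))

theorem ex_add (s t : ℝ) : ex (s + t) = ex s * ex t := by
  rw [ex, ex, ex, ← ENNReal.ofReal_mul (Real.exp_pos _).le, ← Real.exp_add, neg_add]

theorem ex_zero : ex 0 = 1 := by simp [ex]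

theorem ex_ne_top (t : ℝ) : ex t ≠ ⊤ := ENNReal.ofReal_ne_top

theorem ex_le_wt {a : EReal} {t : ℝ} (h : a ≤ t) : ex t ≤ EReal.exp (-a) := by
  rw [ex, ← EReal.exp_coe, EReal.coe_neg]
  exact EReal.exp_monotone (EReal.neg_le_neg_iff.2 h)

theorem exists_lt_of_lt_wt {a : EReal} {c : ℝ≥0∞} (h : c < EReal.exp (-a)) :
    ∃ t : ℝ, a < t ∧ c ≤ ex t := by
  rw [← ENNReal.exp_log c, EReal.exp_lt_exp_iff, EReal.lt_neg_comm] at h
  obtain ⟨t, h1, h2⟩ := EReal.lt_iff_exists_real_btwn.1 h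
  refine ⟨t, h1, ?_⟩
  rw [← ENNReal.exp_log c, ex, ← EReal.exp_coe, EReal.coe_neg]
  exact EReal.exp_monotone (EReal.lt_neg_comm.1 h2).le

theorem measurable_ex : Measurable ex :=
  (Real.measurable_exp.comp measurable_neg).ennreal_ofReal

variable {r : ℝ}

theorem aem {X : Type*} [TopologicalSpace X] [MeasurableSpace X] [BorelSpace X]
    {f : (Fin n → ℂ) → X} (hf : ContinuousOn f (ball 0 r)) : AEMeasurable f (vb n r) :=
  hf.aemeasurable measurableSet_ball

theorem Apx.aem {u : (Fin n → ℂ) → EReal} {f : ℕ → (Fin n → ℂ) → ℝ} (h : Apx r u f) :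
    AEMeasurable (fun z => EReal.exp (-u z)) (vb n r) := by
  refine aemeasurable_of_tendsto_metrizable_ae' (f := fun j z => ex (f j z))
    (fun j => measurable_ex.comp_aemeasurable (Step.aem (h.sp j).sm.continuousOn)) ?_
  filter_upwards [h.le, h.lim] with z h1 h2
  refine tendsto_order.2 ⟨fun c hc => ?_, fun c hc =>
    Eventually.of_forall fun j => (ex_le_wt (h1 j)).trans_lt hc⟩
  obtain ⟨c', h3, h4⟩ := exists_between hc
  obtain ⟨t, h5, h6⟩ := exists_lt_of_lt_wt h4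
  filter_upwards [h2 t h5] with j hj
  exact h3.trans_le (h6.trans (ex_anti hj.le))

/-- the cut-off -/
def th (t : ℝ) : ℝ := 1 - Real.smoothTransition t

theorem contDiff_th : ContDiff ℝ (⊤ : ℕ∞) th := contDiff_const.sub Real.smoothTransition.contDiff

theorem th_of_le {t : ℝ} (h : t ≤ 0) : th t = 1 := by
  rw [th, Real.smoothTransition.zero_of_nonpos h, sub_zero]

theorem th_of_ge {t : ℝ} (h : 1 ≤ t) : th t = 0 := by
  rw [th, Real.smoothTransition.one_of_one_le h, sub_self]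

theorem abs_th_le (t : ℝ) : |th t| ≤ 1 := by
  have h1 := Real.smoothTransition.nonneg t
  have h2 := Real.smoothTransition.le_one t
  rw [th, abs_le]; constructor <;> linarith

theorem abs_th_sub_le (t : ℝ) : |th t - 1| ≤ 1 := by
  have h1 := Real.smoothTransition.nonneg t
  have h2 := Real.smoothTransition.le_one t
  rw [th, abs_le]; constructor <;> linarith

theorem deriv_th {t : ℝ} (h : t ∉ Icc (0 : ℝ) 1) : deriv th t = 0 := by
  rw [mem_Icc, not_and_or, not_le, not_le] at h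
  rcases h with h | h
  · have : th =ᶠ[𝓝 t] fun _ => 1 := by
      filter_upwards [gt_mem_nhds h] with s hs using th_of_le hs.le
    rw [this.deriv_eq, deriv_const]
  · have : th =ᶠ[𝓝 t] fun _ => 0 := by
      filter_upwards [lt_mem_nhds h] with s hs using th_of_ge hs.le
    rw [this.deriv_eq, deriv_const]

theorem enorm_real_mul_le {a : ℝ} (ha : |a| ≤ 1) (c : ℂ) : ‖(a : ℂ) * c‖ₑ ^ 2 ≤ ‖c‖ₑ ^ 2 := by
  rw [enorm_sq_eq, enorm_sq_eq]
  refine ENNReal.ofReal_le_ofReal (pow_le_pow_left₀ (norm_nonneg _) ?_ 2)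
  rw [norm_mul, Complex.norm_real, Real.norm_eq_abs]
  exact mul_le_of_le_one_left (norm_nonneg _) ha

/-- the mass of `p` on `{g j - f j ≤ 1}` is asymptotically at most the mass on `T` -/
theorem mass_le {φ G : (Fin n → ℂ) → EReal} {f g : ℕ → (Fin n → ℂ) → ℝ} (hf : Apx r φ f)
    (hg : Apx r G g) {S T : Set (Fin n → ℂ)} (hT : NullMeasurableSet T (vb n r))
    (hS : ∀ j, ∀ z ∈ ball (0 : Fin n → ℂ) r, g j z - f j z ≤ 1 → z ∈ S)
    (hT' : ∀ᵐ z ∂vb n r, z ∉ T → φ z + (2 : ℝ) ≤ G z) {h : (Fin n → ℂ) → ℂ}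
    (hh : DifferentiableOn ℂ h (ball 0 r))
    (hfin : ∫⁻ z in S, ‖h z‖ₑ ^ 2 * EReal.exp (-φ z) ∂vb n r < ∞) :
    ∃ e : ℕ → ℝ≥0∞, Tendsto e atTop (𝓝 0) ∧ ∀ j,
      ∫⁻ z, {z | g j z - f j z ≤ 1}.indicator (fun z => ‖h z‖ₑ ^ 2 * EReal.exp (-φ z)) z ∂vb n r ≤
        ∫⁻ z in S ∩ T, ‖h z‖ₑ ^ 2 * EReal.exp (-φ z) ∂vb n r + e j := by
  set p : (Fin n → ℂ) → ℝ≥0∞ := fun z => ‖h z‖ₑ ^ 2 * EReal.exp (-φ z) with hp
  have hpm : AEMeasurable p (vb n r) := ((aem hh.continuousOn).enorm.pow_const 2).mul hf.aem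
  have hE : ∀ j, NullMeasurableSet {z | g j z - f j z ≤ 1} (vb n r) := fun j =>
    nullMeasurableSet_le (aem ((hg.sp j).sm.sub (hf.sp j).sm).continuousOn) aemeasurable_const
  have hm : ∀ j, AEMeasurable (({z | g j z - f j z ≤ 1} ∩ Tᶜ).indicator p) (vb n r) := fun j =>
    hpm.indicator₀ ((hE j).inter hT.compl)
  have hfin' : ∫⁻ z, S.indicator p z ∂vb n r ≠ ∞ :=
    ((lintegral_indicator_le _ _).trans_lt hfin).ne
  have hbd : ∀ j, ({z | g j z - f j z ≤ 1} ∩ Tᶜ).indicator p ≤ᵐ[vb n r] S.indicator p := by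
    intro j
    filter_upwards [ae_restrict_mem measurableSet_ball] with z hz
    by_cases h1 : z ∈ {z | g j z - f j z ≤ 1} ∩ Tᶜ
    · rw [indicator_of_mem h1, indicator_of_mem (hS j z hz h1.1)]
    · rw [indicator_of_notMem h1]; exact zero_le
  refine ⟨fun j => ∫⁻ z, ({z | g j z - f j z ≤ 1} ∩ Tᶜ).indicator p z ∂vb n r, ?_, fun j => ?_⟩
  · have hlt : ∀ᵐ z ∂vb n r, ⨆ j, ({z | g j z - f j z ≤ 1} ∩ Tᶜ).indicator p z < ∞ := by
      refine ae_lt_top' (AEMeasurable.iSup hm) (ne_top_of_le_ne_top hfin' (lintegral_mono_ae ?_))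
      filter_upwards [ae_all_iff.2 hbd] with z hz using iSup_le hz
    have := tendsto_lintegral_of_dominated_convergence' (f := fun _ => 0) (S.indicator p) hm hbd
      hfin' (by
        filter_upwards [hlt, hT', hf.lim, hg.le, hf.le] with z h1 h2 h3 h4 h5
        refine tendsto_const_nhds.congr' ?_
        by_cases hz : z ∈ T
        · exact Eventually.of_forall fun j => (indicator_of_notMem (fun h => h.2 hz) _).symm
        by_cases h0 : h z = 0
        · refine Eventually.of_forall fun j => ?_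
          simp [indicator, hp, h0]
        induction hφ : φ z with
        | top => exact absurd (hφ ▸ h5 0) (by simp)
        | bot =>
          refine Eventually.of_forall fun j => (indicator_of_notMem (fun hj => ?_) _).symm
          have h6 := (le_iSup (fun j => ({z | g j z - f j z ≤ 1} ∩ Tᶜ).indicator p z) j).trans_lt h1
          rw [indicator_of_mem hj] at h6
          simp [hp, hφ, h0] at h6
        | coe a =>
          filter_upwards [h3 (a + 1) (by rw [hφ]; exact_mod_cast lt_add_one a)] with j hj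
          refine (indicator_of_notMem (fun hj' => ?_) _).symm
          have h6 := (h2 hz).trans (h4 j)
          rw [hφ, ← EReal.coe_add, EReal.coe_le_coe_iff] at h6
          have h8 : g j z - f j z ≤ 1 := hj'.1
          linarith)
    simpa using this
  · refine le_trans ?_ (add_le_add (lintegral_indicator_le _ _) le_rfl)
    rw [← lintegral_add_right' _ (hm j)]
    refine lintegral_mono_ae ?_
    filter_upwards [ae_restrict_mem measurableSet_ball] with z hz
    by_cases h1 : z ∈ {z | g j z - f j z ≤ 1}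
    · rw [indicator_of_mem h1]
      by_cases h2 : z ∈ T
      · rw [indicator_of_mem (show z ∈ S ∩ T from ⟨hS j z hz h1, h2⟩)]; exact le_self_add
      · rw [indicator_of_mem (show z ∈ {z | g j z - f j z ≤ 1} ∩ Tᶜ from ⟨h1, h2⟩)]
        exact le_add_self
    · rw [indicator_of_notMem h1]; exact zero_le

theorem lt_add_of {a b : EReal} {t C : ℝ} (h1 : b ≤ a + C) (h2 : a < t) :
    b < ((t + C : ℝ) : EReal) := by
  refine h1.trans_lt ?_
  rw [EReal.coe_add]
  exact EReal.add_lt_add_right_coe h2 C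

/-- **the Hörmander step** -/
theorem step (hn : 0 < n) (C : ℝ) : ∃ Q : ℝ≥0∞, Q ≠ ⊤ ∧ ∀ {r : ℝ}, 0 < r →
    ∀ {φ G : (Fin n → ℂ) → EReal} {f g : ℕ → (Fin n → ℂ) → ℝ}, Apx r φ f → Apx r G g →
    (∀ᵐ z ∂vb n r, G z ≤ φ z + C) → ∀ {S T : Set (Fin n → ℂ)}, NullMeasurableSet T (vb n r) →
    (∀ j, ∀ z ∈ ball (0 : Fin n → ℂ) r, g j z - f j z ≤ 1 → z ∈ S) →
    (∀ᵐ z ∂vb n r, z ∉ T → φ z + (2 : ℝ) ≤ G z) → ∀ {h : (Fin n → ℂ) → ℂ},
    DifferentiableOn ℂ h (ball 0 r) →
    ∫⁻ z in S, ‖h z‖ₑ ^ 2 * EReal.exp (-φ z) ∂vb n r < ∞ →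
    ∃ V : (Fin n → ℂ) → ℂ, DifferentiableOn ℂ V (ball 0 r) ∧
      ∫⁻ z, ‖V z‖ₑ ^ 2 * EReal.exp (-φ z) ∂vb n r ≤
        Q * ∫⁻ z in S ∩ T, ‖h z‖ₑ ^ 2 * EReal.exp (-φ z) ∂vb n r ∧
      ∀ x ∈ ball (0 : Fin n → ℂ) r, S ∈ 𝓝 x → (∃ C' : ℝ, ∃ U ∈ 𝓝 x, ∀ᵐ y ∂vb n r, y ∈ U →
        G y ≤ ((4 * n * Real.log ‖y - x‖ + C' : ℝ) : EReal)) → V x = h x := by
  obtain ⟨Q0, hQ0, hQ⟩ := exists_const contDiff_th fun t => deriv_th
  set q : ℝ≥0∞ := ENNReal.ofReal Q0 with hq
  have hqt : q ≠ ⊤ := ENNReal.ofReal_ne_top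
  set Q : ℝ≥0∞ := 2 * (ex (-kap C) * (2 * q)) + 2 with hQd
  have hQt : Q ≠ ⊤ := ENNReal.add_ne_top.2 ⟨ENNReal.mul_ne_top (by simp)
    (ENNReal.mul_ne_top (ex_ne_top _) (ENNReal.mul_ne_top (by simp) hqt)), by simp⟩
  refine ⟨Q, hQt, fun {r} hr φ G f g hf hg hC S T hT hS hT' h hh hfin => ?_⟩
  set p : (Fin n → ℂ) → ℝ≥0∞ := fun z => ‖h z‖ₑ ^ 2 * EReal.exp (-φ z) with hp
  have hpm : AEMeasurable p (vb n r) := ((aem hh.continuousOn).enorm.pow_const 2).mul hf.aem
  set ψ : ℕ → (Fin n → ℂ) → ℝ := fun j z => f j z + kap (g j z - f j z) with hψ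
  have hFc : ∀ j, ContinuousOn (fun z => g j z - f j z) (ball 0 r) := fun j =>
    ((hg.sp j).sm.sub (hf.sp j).sm).continuousOn
  have hψc : ∀ j, ContinuousOn (ψ j) (ball 0 r) := fun j =>
    (hf.sp j).sm.continuousOn.add (contDiff_kap.continuous.comp_continuousOn (hFc j))
  have hE : ∀ j, NullMeasurableSet {z | g j z - f j z ≤ 1} (vb n r) := fun j =>
    nullMeasurableSet_le (aem (hFc j)) aemeasurable_const
  set A : ℕ → ℝ≥0∞ := fun j => ∫⁻ z, {z | g j z - f j z ≤ 1}.indicator p z ∂vb n r with hA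
  set P : ℝ≥0∞ := ∫⁻ z in S, p z ∂vb n r with hP
  have hAP : ∀ j, A j ≤ P := by
    intro j
    refine le_trans (lintegral_mono_ae ?_) (lintegral_indicator_le _ _)
    filter_upwards [ae_restrict_mem measurableSet_ball] with z hz
    by_cases h1 : z ∈ {z | g j z - f j z ≤ 1}
    · rw [indicator_of_mem h1, indicator_of_mem (hS j z hz h1)]
    · rw [indicator_of_notMem h1]; exact zero_le
  obtain ⟨e, he, hAe⟩ := mass_le hf hg hT hS hT' hh hfin
  choose V hV hVb using fun j => solve contDiff_th hQ hr (hf.sp j) (hg.sp j) hh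
  set d : ℕ → (Fin n → ℂ) → ℝ≥0∞ := fun j z =>
    ‖V j z - th (g j z - f j z) * h z‖ₑ ^ 2 * ex (ψ j z) with hd
  have hdm : ∀ j, AEMeasurable (d j) (vb n r) := fun j =>
    ((aem ((hV j).continuousOn.sub ((Complex.continuous_ofReal.comp_continuousOn
      (contDiff_th.continuous.comp_continuousOn (hFc j))).mul hh.continuousOn))).enorm.pow_const
      2).mul (measurable_ex.comp_aemeasurable (aem (hψc j)))
  have hdb : ∀ j, ∫⁻ z, d j z ∂vb n r ≤ 2 * q * A j := by
    intro j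
    refine (hVb j).trans ?_
    rw [mul_assoc, ← lintegral_const_mul' _ _ hqt]
    refine mul_le_mul_right (lintegral_mono_ae ?_) _
    filter_upwards [hf.le] with z hz
    by_cases h1 : z ∈ {z | g j z - f j z ≤ 1}
    · rw [indicator_of_mem h1, if_pos (show g j z - f j z ≤ 1 from h1)]
      exact mul_le_mul_right (mul_le_mul_right (ex_le_wt (hz j)) _) _
    · rw [if_neg (show ¬ g j z - f j z ≤ 1 from h1)]; simp
  -- the first weights
  set W : ℕ → (Fin n → ℂ) → ℝ≥0∞ := fun j z => ex (max (f j z) (ψ j z - kap C)) with hW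
  have hWm : ∀ j, AEMeasurable (W j) (vb n r) := fun j =>
    measurable_ex.comp_aemeasurable (aem ((hf.sp j).sm.continuousOn.sup
      ((hψc j).sub continuousOn_const)))
  have hb1 : ∀ j, ∫⁻ z, ‖V j z‖ₑ ^ 2 * W j z ∂vb n r ≤ Q * A j := by
    intro j
    calc ∫⁻ z, ‖V j z‖ₑ ^ 2 * W j z ∂vb n r
        ≤ ∫⁻ z, (2 * (ex (-kap C) * d j z) +
            2 * {z | g j z - f j z ≤ 1}.indicator p z) ∂vb n r := by
          refine lintegral_mono_ae ?_
          filter_upwards [hf.le] with z hz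
          have h1 := enorm_add_sq_le (V j z - th (g j z - f j z) * h z)
            (th (g j z - f j z) * h z)
          rw [sub_add_cancel] at h1
          refine (mul_le_mul_left h1 _).trans ?_
          rw [add_mul, mul_assoc, mul_assoc]
          refine add_le_add (mul_le_mul_right ?_ _) (mul_le_mul_right ?_ _)
          · rw [hd, mul_left_comm, ← ex_add]
            exact mul_le_mul_right (ex_anti (by
              rw [neg_add_eq_sub]; exact le_max_right _ _)) _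
          · by_cases h2 : z ∈ {z | g j z - f j z ≤ 1}
            · rw [indicator_of_mem h2]
              exact mul_le_mul' (enorm_real_mul_le (abs_th_le _) _)
                ((ex_anti (le_max_left _ _)).trans (ex_le_wt (hz j)))
            · rw [th_of_ge (le_of_lt (not_le.1 h2))]; simp
      _ = 2 * (ex (-kap C) * ∫⁻ z, d j z ∂vb n r) + 2 * A j := by
          rw [lintegral_add_right' _ ((hpm.indicator₀ (hE j)).const_mul 2),
            lintegral_const_mul' _ _ (by simp), lintegral_const_mul' _ _ (ex_ne_top _),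
            lintegral_const_mul' _ _ (by simp)]
      _ ≤ 2 * (ex (-kap C) * (2 * q * A j)) + 2 * A j := by gcongr; exact hdb j
      _ = Q * A j := by rw [hQd]; ring
  obtain ⟨M1, hM1⟩ := hf.bdd
  obtain ⟨M2, hM2⟩ := hg.bdd
  set M := max M1 M2 with hM
  have hψle : ∀ j, ∀ z ∈ ball (0 : Fin n → ℂ) r, ψ j z ≤ g j z / 2 + (M + 1) / 2 :=
    fun j z hz => add_kap_le ((hM1 j z hz).trans (le_max_left _ _))
      ((hM2 j z hz).trans (le_max_right _ _))
  set M' := max M1 (M2 / 2 + (M + 1) / 2 - kap C) with hM'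
  obtain ⟨J, V0, hJ, hV0, hlim⟩ := seq_montel hV (K := ex (-M') * (Q * P))
    (ENNReal.mul_ne_top (ex_ne_top _) (ENNReal.mul_ne_top hQt hfin.ne))
    (Eventually.of_forall fun j => by
      refine le_trans ?_ (mul_le_mul_right ((hb1 j).trans (mul_le_mul_right (hAP j) _)) _)
      rw [← lintegral_const_mul' _ _ (ex_ne_top _)]
      refine setLIntegral_mono' measurableSet_ball fun z hz => ?_
      rw [mul_left_comm, ← ex_add]
      refine le_trans (le_of_eq (by rw [ex_zero, mul_one]))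
        (mul_le_mul_right (ex_anti (t := 0) ?_) _)
      have h1 := hψle j z hz
      have h2 := hM2 j z hz
      have h3 : max (f j z) (ψ j z - kap C) ≤ M' := max_le_max (hM1 j z hz) (by linarith)
      linarith)
  refine ⟨V0, hV0, ?_, fun x hx hSx ⟨C', U, hU, hC'⟩ => ?_⟩
  · refine fatou (u := fun m => V (J m)) (W := fun m => W (J m))
      (fun m => aem (hV _).continuousOn) (fun m => hWm _)
      ((ae_restrict_mem measurableSet_ball).mono hlim) ?_ fun L' hL' => ?_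
    · filter_upwards [hf.lim, hg.lim, hC] with z h1 h2 h3 c hc
      obtain ⟨t, h4, h5⟩ := exists_lt_of_lt_wt hc
      filter_upwards [hJ.eventually (h1 t h4), hJ.eventually (h2 _ (lt_add_of h3 h4))] with m h6 h7
      refine h5.trans (ex_anti (max_le h6.le ?_))
      have := add_kap_mono h6.le h7.le
      rw [add_sub_cancel_left] at this
      simp only [hψ]
      linarith
    · have h1 := (ENNReal.Tendsto.const_mul (a := Q) (he.comp hJ) (Or.inr hQt)).const_add
        (Q * ∫⁻ z in S ∩ T, p z ∂vb n r)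
      rw [mul_zero, add_zero] at h1
      filter_upwards [h1.eventually (gt_mem_nhds hL')] with m hm
      refine ((hb1 _).trans ((mul_le_mul_right (hAe _) _).trans ?_)).trans hm.le
      rw [mul_add]
      exact le_rfl
  · obtain ⟨δ, hδ, hδ'⟩ := Metric.mem_nhds_iff.1 (inter_mem (inter_mem hSx
      (isOpen_ball.mem_nhds hx)) hU)
    have hsub : ball x δ ⊆ ball 0 r := fun y hy => (hδ' hy).1.2
    have hν : (vb n r).restrict (ball x δ) = volume.restrict (ball x δ) :=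
      Measure.restrict_restrict_of_subset hsub
    refine sub_eq_zero.1 (eq_zero_of_pole hn (u := fun y => V0 y - h y)
      ((hV0.sub hh).continuousOn.continuousAt (isOpen_ball.mem_nhds hx)) (ball_mem_nhds x hδ)
      (C := (C' + 1) / 2 + (M + 1) / 2) (Eventually.of_forall fun _ => le_rfl) ?_)
    rw [← hν]
    refine lt_of_le_of_lt (fatou (u := fun m y => V (J m) y - h y) (W := fun m y => ex (ψ (J m) y))
      (fun m => (aem ((hV _).sub hh).continuousOn).restrict)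
      (fun m => (measurable_ex.comp_aemeasurable (aem (hψc _))).restrict) ?_ ?_
      (L := 2 * (2 * q * P) + 2 * P) fun L' hL' => Eventually.of_forall fun m => ?_) ?_
    · refine ae_restrict_of_ae ((ae_restrict_mem measurableSet_ball).mono fun y hy => ?_)
      exact (hlim y hy).sub_const _
    · filter_upwards [ae_restrict_mem measurableSet_ball, ae_restrict_of_ae hg.lim,
        ae_restrict_of_ae hC'] with y hy h1 hyx c hc
      have h2 := (hyx (hδ' hy).2).trans_lt (EReal.coe_lt_coe_iff.2 (lt_add_one _))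
      filter_upwards [hJ.eventually (h1 _ h2)] with m hm
      refine hc.le.trans (ex_anti ?_)
      have := hψle (J m) y (hsub hy)
      linarith
    · refine le_trans ?_ hL'.le
      calc ∫⁻ y in ball x δ, ‖V (J m) y - h y‖ₑ ^ 2 * ex (ψ (J m) y) ∂vb n r
          ≤ ∫⁻ y in ball x δ, (2 * d (J m) y + 2 * p y) ∂vb n r := by
            refine lintegral_mono_ae ?_
            filter_upwards [ae_restrict_of_ae hf.le] with z hz
            have h1 := enorm_add_sq_le (V (J m) z - th (g (J m) z - f (J m) z) * h z)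
              (((th (g (J m) z - f (J m) z) - 1 : ℝ) : ℂ) * h z)
            have e1 : V (J m) z - th (g (J m) z - f (J m) z) * h z +
              ((th (g (J m) z - f (J m) z) - 1 : ℝ) : ℂ) * h z = V (J m) z - h z := by
              push_cast; ring
            rw [e1] at h1
            refine (mul_le_mul_left h1 _).trans ?_
            rw [add_mul, mul_assoc, mul_assoc]
            refine add_le_add le_rfl (mul_le_mul_right ?_ _)
            rcases le_total (g (J m) z - f (J m) z) 0 with h2 | h2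
            · rw [th_of_le h2]; simp
            · refine mul_le_mul' (enorm_real_mul_le (abs_th_sub_le _) _)
                ((ex_anti ?_).trans (ex_le_wt (hz (J m))))
              have := half_le_kap (g (J m) z - f (J m) z)
              simp only [hψ]
              linarith
        _ = 2 * ∫⁻ y in ball x δ, d (J m) y ∂vb n r + 2 * ∫⁻ y in ball x δ, p y ∂vb n r := by
            rw [lintegral_add_right' _ (hpm.restrict.const_mul 2),
              lintegral_const_mul' _ _ (by simp), lintegral_const_mul' _ _ (by simp)]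
        _ ≤ 2 * (2 * q * P) + 2 * P := by
            gcongr
            · exact (setLIntegral_le_lintegral _ _).trans ((hdb _).trans
                (mul_le_mul_right (hAP _) _))
            · exact lintegral_mono_set fun y hy => (hδ' hy).1.1
    · exact ENNReal.add_lt_top.2 ⟨ENNReal.mul_lt_top (by simp) (ENNReal.mul_lt_top
        (ENNReal.mul_lt_top (by simp) hqt.lt_top) hfin), ENNReal.mul_lt_top (by simp) hfin⟩

end Crest.Agent.X261.Wand.Step
end
end

-- ▼ part X261/Wand/Ubp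
section

/-!
# Row 261, package WAND (helper57), file `Ubp`

* `ubp` : an abstract consequence of the uniform boundedness principle;
* `exists_fin_bound` : a family of germs of holomorphic functions is dominated by finitely many
  of its members (the ring of germs is Noetherian).
-/

set_option autoImplicit false
set_option linter.style.haveILetI false

open Set Filter Topology

noncomputable section

namespace Crest.Agent.X261.Wand.Ubp

/-- nonzero bounded functionals `l k` on a complete seminormed space cannot both tend weakly to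
zero after normalisation and be dominated by their values at finitely many vectors -/
theorem ubp {V : Type*} [AddCommGroup V] [Module ℂ V] (p : Seminorm ℂ V)
    (hc : ∀ u : ℕ → V, (∀ ε > 0, ∃ N, ∀ m ≥ N, ∀ k ≥ N, p (u m - u k) < ε) →
      ∃ v, Tendsto (fun m => p (u m - v)) atTop (𝓝 0))
    (l : ℕ → V →ₗ[ℂ] ℂ) (hb : ∀ k, ∃ C : ℝ, ∀ v, ‖l k v‖ ≤ C * p v)
    (hne : ∀ k, ∃ v, l k v ≠ 0)
    (hap : ∀ v, ∀ ε > 0, ∀ᶠ k in atTop, ∃ v', l k v' = 0 ∧ p (v - v') ≤ ε)
    (e : Finset V) (hfg : ∀ v, ∃ m : ℝ, ∀ᶠ k in atTop, ‖l k v‖ ≤ m * ∑ i ∈ e, ‖l k i‖) :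
    False := by
  letI : SeminormedAddCommGroup V := p.toAddGroupSeminorm.toSeminormedAddCommGroup
  have hn : ∀ v : V, ‖v‖ = p v := fun _ => rfl
  letI : NormedSpace ℂ V := ⟨fun c x => by rw [hn, hn, map_smul_eq_mul]⟩
  haveI : CompleteSpace V := by
    refine Metric.complete_of_cauchySeq_tendsto fun u hu => ?_
    obtain ⟨v, hv⟩ := hc u fun ε hε => by
      obtain ⟨N, hN⟩ := Metric.cauchySeq_iff.1 hu ε hε
      exact ⟨N, fun m hm k hk => by rw [← hn, ← dist_eq_norm]; exact hN m hm k hk⟩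
    exact ⟨v, tendsto_iff_norm_sub_tendsto_zero.2 hv⟩
  choose C hC using hb
  set L : ℕ → V →L[ℂ] ℂ := fun k => (l k).mkContinuous (C k) (hC k) with hL
  have hLl : ∀ k v, L k v = l k v := fun _ _ => rfl
  have hpos : ∀ k, 0 < ‖L k‖ := by
    intro k
    obtain ⟨v, hv⟩ := hne k
    refine lt_of_le_of_ne (norm_nonneg _) fun h => hv ?_
    have := (L k).le_opNorm v
    rw [← h, zero_mul, hLl] at this
    exact norm_le_zero_iff.1 this
  have hweak : ∀ v, Tendsto (fun k => ‖l k v‖ / ‖L k‖) atTop (𝓝 0) := by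
    intro v
    refine tendsto_order.2 ⟨fun a ha => Eventually.of_forall fun k =>
      ha.trans_le (by positivity), fun a ha => ?_⟩
    filter_upwards [hap v (a / 2) (by positivity)] with k ⟨v', h1, h2⟩
    have h3 := (L k).le_opNorm (v - v')
    rw [hLl, map_sub, h1, sub_zero, hn] at h3
    rw [div_lt_iff₀ (hpos k)]
    have := hpos k
    nlinarith
  set ε : ℕ → ℝ := fun k => (∑ i ∈ e, ‖l k i‖ / ‖L k‖) + 1 / ((k : ℝ) + 1) with hε
  have hε0 : ∀ k, 0 < ε k := fun k => by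
    have : 0 ≤ ∑ i ∈ e, ‖l k i‖ / ‖L k‖ := Finset.sum_nonneg fun i _ => by positivity
    positivity
  have hεt : Tendsto ε atTop (𝓝 0) := by
    have := (tendsto_finsetSum e fun i _ => hweak i).add
      (tendsto_one_div_add_atTop_nhds_zero_nat (𝕜 := ℝ))
    rwa [Finset.sum_const_zero, add_zero] at this
  set g : ℕ → V →L[ℂ] ℂ := fun k => (((ε k * ‖L k‖)⁻¹ : ℝ) : ℂ) • L k with hg
  have hgn : ∀ k, ‖g k‖ = (ε k)⁻¹ := by
    intro k
    have := hpos k
    have := hε0 k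
    rw [hg, norm_smul, Complex.norm_real, Real.norm_of_nonneg (by positivity)]
    field_simp
  obtain ⟨C', hC'⟩ := banach_steinhaus (g := g) fun v => by
    obtain ⟨m, hm⟩ := hfg v
    have h1 : ∀ᶠ k in atTop, ‖g k v‖ ≤ |m| := by
      filter_upwards [hm] with k hk
      have h2 := hpos k
      have h3 := hε0 k
      have h4 : ∑ i ∈ e, ‖l k i‖ ≤ ε k * ‖L k‖ := by
        rw [hε, add_mul, Finset.sum_mul]
        simp only [div_mul_cancel₀ _ h2.ne']
        have : 0 ≤ 1 / ((k : ℝ) + 1) * ‖L k‖ := by positivity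
        linarith
      have h5 : 0 ≤ ∑ i ∈ e, ‖l k i‖ := Finset.sum_nonneg fun i _ => norm_nonneg _
      have h6 : ‖l k v‖ ≤ |m| * (ε k * ‖L k‖) :=
        hk.trans (mul_le_mul (le_abs_self m) h4 h5 (abs_nonneg m))
      simp only [hg, smul_apply, norm_smul, Complex.norm_real, hLl]
      rw [Real.norm_of_nonneg (by positivity), inv_mul_le_iff₀ (by positivity)]
      linarith
    have h2 : IsBoundedUnder (· ≤ ·) atTop fun k => ‖g k v‖ := ⟨|m|, h1⟩
    rw [← Nat.cofinite_eq_atTop] at h2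
    obtain ⟨B, hB⟩ := h2.bddAbove_range_of_cofinite
    exact ⟨B, fun i => hB ⟨i, rfl⟩⟩
  have h1 : Tendsto (fun k => (ε k)⁻¹) atTop atTop :=
    tendsto_inv_nhdsGT_zero.comp (tendsto_nhdsWithin_iff.2 ⟨hεt, Eventually.of_forall hε0⟩)
  obtain ⟨k, hk⟩ := (h1.eventually_gt_atTop C').exists
  exact absurd (hgn k ▸ hC' k) hk.not_ge

open Crest.Agent.R275.Loc2879 in
/-- a family of holomorphic germs is dominated by finitely many of its members -/
theorem exists_fin_bound {F : Type*} [NormedAddCommGroup F] [NormedSpace ℂ F]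
    [FiniteDimensional ℂ F] {z : F} {ι : Type*} (f : ι → F → ℂ) (hf : ∀ i, AnalyticAt ℂ (f i) z) :
    ∃ e : Finset ι, ∀ i, ∃ m : ℝ, ∀ᶠ x in 𝓝 z, ‖f i x‖ ≤ m * ∑ j ∈ e, ‖f j x‖ := by
  classical
  set g : ι → OO z := fun i => gm (f i) (hf i) with hg
  have hfg : (Submodule.span (OO z) (range g)).FG := IsNoetherian.noetherian _
  obtain ⟨s, hs, hspan⟩ := (Submodule.fg_span_iff_fg_span_finset_subset _).1 hfg
  obtain ⟨e, rfl⟩ : ∃ e : Finset ι, s = e.image g := by
    obtain ⟨e, -, he⟩ := Finset.subset_set_image_iff.1 (show (s : Set (OO z)) ⊆ g '' univ by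
      rwa [image_univ])
    exact ⟨e, he.symm⟩
  refine ⟨e, fun i => ?_⟩
  have key : ∀ a ∈ Submodule.span (OO z) (↑(e.image g) : Set (OO z)),
      ∀ (u : F → ℂ) (hu : AnalyticAt ℂ u z), gm u hu = a →
        ∃ m : ℝ, 0 ≤ m ∧ ∀ᶠ x in 𝓝 z, ‖u x‖ ≤ m * ∑ j ∈ e, ‖f j x‖ := by
    intro a ha
    induction ha using Submodule.span_induction with
    | mem a ha =>
      intro u hu h
      obtain ⟨j, hj, rfl⟩ := Finset.mem_image.1 (Finset.mem_coe.1 ha)
      refine ⟨1, zero_le_one, ?_⟩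
      filter_upwards [gm_eq_gm.1 h] with x hx
      rw [hx, one_mul]
      exact Finset.single_le_sum (f := fun j => ‖f j x‖) (fun _ _ => norm_nonneg _) hj
    | zero =>
      intro u hu h
      refine ⟨0, le_rfl, ?_⟩
      filter_upwards [gm_eq_zero.1 h] with x hx
      simp [hx]
    | add a b _ _ iha ihb =>
      intro u hu h
      obtain ⟨u1, hu1, rfl⟩ := exists_gm a
      obtain ⟨u2, hu2, rfl⟩ := exists_gm b
      obtain ⟨m1, h1, h1'⟩ := iha u1 hu1 rfl
      obtain ⟨m2, h2, h2'⟩ := ihb u2 hu2 rfl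
      rw [gm_add] at h
      refine ⟨m1 + m2, by positivity, ?_⟩
      filter_upwards [gm_eq_gm.1 h, h1', h2'] with x hx hx1 hx2
      rw [hx, add_mul]
      exact (norm_add_le _ _).trans (add_le_add hx1 hx2)
    | smul c a _ iha =>
      intro u hu h
      obtain ⟨u1, hu1, rfl⟩ := exists_gm c
      obtain ⟨u2, hu2, rfl⟩ := exists_gm a
      obtain ⟨m2, h2, h2'⟩ := iha u2 hu2 rfl
      rw [smul_eq_mul, gm_mul] at h
      refine ⟨(‖u1 z‖ + 1) * m2, by positivity, ?_⟩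
      have h3 : ∀ᶠ x in 𝓝 z, ‖u1 x‖ < ‖u1 z‖ + 1 :=
        hu1.continuousAt.norm.eventually (gt_mem_nhds (lt_add_one _))
      filter_upwards [gm_eq_gm.1 h, h2', h3] with x hx hx1 hx2
      rw [hx, Pi.mul_apply, norm_mul, mul_assoc]
      exact mul_le_mul hx2.le hx1 (norm_nonneg _) (by positivity)
  obtain ⟨m, -, hm⟩ := key (g i) (hspan ▸ Submodule.subset_span ⟨i, rfl⟩) (f i) (hf i) rfl
  exact ⟨m, hm⟩

end Crest.Agent.X261.Wand.Ubp
end
end

-- ▼ part X261/Wand/Core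
section

/-!
# Row 261, package WAND (helper57), file `Core`

* `bombieri` : if `e^{-φ}` is integrable near `x`, some holomorphic `h` on the polydisc with
  `∫ |h|² e^{-φ} < ∞` has `h x = 1`;
* `wand_apx` : the wandering lemma on a polydisc, for weights with smooth approximants.
-/

set_option autoImplicit false

open Set Filter Topology MeasureTheory Metric
open scoped ENNReal

noncomputable section

namespace Crest.Agent.X261.Wand.Core

open Crest.Agent.R271 Crest.Agent.R271.Ho51 Crest.Agent.R271.Ball399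
open Crest.Agent.X261.Wand.Solve Crest.Agent.X261.Wand.Lim Crest.Agent.X261.Wand.Step

variable {n : ℕ} {r : ℝ}

theorem sp_add {f g : (Fin n → ℂ) → ℝ} (hf : SP r f) (hg : SP r g) : SP r fun z => f z + g z := by
  refine ⟨hf.sm.add hg.sm, fun z hz w => ?_⟩
  have h := W792.lev_add (Sm_restrict hf.sm) (Sm_restrict hg.sm) ⟨z, hz⟩ w
  rw [lev_restrict (fun z => f z + g z), lev_restrict, lev_restrict] at h
  rw [h]
  exact add_nonneg (hf.lev z hz w) (hg.lev z hz w)

theorem sp_const_mul {f : (Fin n → ℂ) → ℝ} (hf : SP r f) {c : ℝ} (hc : 0 ≤ c) :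
    SP r fun z => c * f z := by
  refine ⟨contDiffOn_const.mul hf.sm, fun z hz w => ?_⟩
  have h := W792.lev_const_mul (Sm_restrict hf.sm) c ⟨z, hz⟩ w
  rw [lev_restrict (fun z => c * f z), lev_restrict] at h
  rw [h]
  exact mul_nonneg hc (hf.lev z hz w)

theorem sp_const (c : ℝ) : SP r fun _ : Fin n → ℂ => c :=
  ⟨contDiffOn_const, fun z hz w => by simp [lev0]⟩

theorem sp_log (x : Fin n → ℂ) {ε : ℝ} (hε : 0 < ε) :
    SP r fun z => Real.log (nsq (z - x) + ε) := by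
  have h1 : ContDiff ℝ (⊤ : ℕ∞) fun z : Fin n → ℂ => nsq (z - x) + ε := by
    refine ContDiff.add (ContDiff.sum fun j _ => ?_) contDiff_const
    exact ContDiff.norm_sq ℂ ((contDiff_apply ℝ ℂ j).sub contDiff_const)
  refine ⟨(h1.log fun z => (add_pos_of_nonneg_of_pos (nsq_nonneg _) hε).ne').contDiffOn,
    fun z hz w => ?_⟩
  rw [← lev_restrict (fun z => Real.log (nsq (z - x) + ε)) ⟨z, hz⟩]
  refine W792.lev_lg_nonneg (f := fun j (y : Bl n r) => y.val j - x j) (fun j => ?_) hε.le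
    (fun y => add_pos_of_nonneg_of_pos (W792.nS_nonneg _ _) hε) _ w
  refine ⟨(hol_coord j).sm.sub (Sm.const _), fun y v => ?_⟩
  rw [D_sub (hol_coord j).sm (Sm.const _), D_const, sub_zero]
  exact (hol_coord j).cl y v

theorem sq_le_nsq (v : Fin n → ℂ) : ‖v‖ ^ 2 ≤ nsq v := by
  have h : ‖v‖ ≤ Real.sqrt (nsq v) := by
    refine (pi_norm_le_iff_of_nonneg (Real.sqrt_nonneg _)).2 fun j => Real.le_sqrt_of_sq_le ?_
    exact Finset.single_le_sum (f := fun j => ‖v j‖ ^ 2) (fun _ _ => by positivity)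
      (Finset.mem_univ j)
  calc ‖v‖ ^ 2 ≤ Real.sqrt (nsq v) ^ 2 := by gcongr
    _ = nsq v := Real.sq_sqrt (nsq_nonneg v)

theorem nsq_le (v : Fin n → ℂ) : nsq v ≤ n * ‖v‖ ^ 2 := by
  have := Finset.sum_le_card_nsmul Finset.univ (fun j => ‖v j‖ ^ 2) (‖v‖ ^ 2) fun j _ =>
    pow_le_pow_left₀ (norm_nonneg _) (norm_le_pi_norm v j) 2
  simpa [nsq] using this

/-- **Bombieri's lemma on a polydisc** -/
theorem bombieri (hn : 0 < n) (hr : 0 < r) {φ : (Fin n → ℂ) → EReal} {f : ℕ → (Fin n → ℂ) → ℝ}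
    (hf : Apx r φ f) {x : Fin n → ℂ} (hx : x ∈ ball (0 : Fin n → ℂ) r) {V : Set (Fin n → ℂ)}
    (hV : V ∈ 𝓝 x) (hfin : ∫⁻ z in V, EReal.exp (-φ z) < ∞) :
    ∃ h : (Fin n → ℂ) → ℂ, DifferentiableOn ℂ h (ball 0 r) ∧
      ∫⁻ z, ‖h z‖ₑ ^ 2 * EReal.exp (-φ z) ∂vb n r < ∞ ∧ h x = 1 := by
  obtain ⟨δ, hδ, hδ'⟩ := Metric.mem_nhds_iff.1 hV
  have : Nonempty (Fin n) := ⟨⟨0, hn⟩⟩
  have hn' : (0 : ℝ) < n := by exact_mod_cast hn
  set A : ℝ := 2 - 2 * n * Real.log (δ ^ 2) with hA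
  set L : (Fin n → ℂ) → ℝ := fun y => 2 * n * Real.log (nsq (y - x)) + A with hL
  set Lj : ℕ → (Fin n → ℂ) → ℝ := fun j y =>
    2 * n * Real.log (nsq (y - x) + 1 / ((j : ℝ) + 1)) + A with hLj
  have hε : ∀ j : ℕ, (0 : ℝ) < 1 / ((j : ℝ) + 1) := fun j => by positivity
  have hε1 : ∀ j : ℕ, 1 / ((j : ℝ) + 1) ≤ 1 := fun j =>
    (div_le_one (by positivity)).2 (by linarith [(Nat.cast_nonneg j : (0 : ℝ) ≤ j)])
  have hne : ∀ᵐ y ∂vb n r, 0 < ‖y - x‖ := by
    filter_upwards [ae_restrict_of_ae (compl_mem_ae_iff.2 (measure_singleton x))] with y hy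
    exact norm_pos_iff.2 (sub_ne_zero.2 hy)
  have hnb : ∀ y ∈ ball (0 : Fin n → ℂ) r, nsq (y - x) ≤ n * (2 * r) ^ 2 := by
    intro y hy
    refine (nsq_le _).trans ?_
    have h1 := norm_sub_le y x
    rw [mem_ball_zero_iff] at hy hx
    gcongr
    linarith
  have hoff : ∀ y, y ∉ ball x δ → ∀ s, nsq (y - x) ≤ s → 2 ≤ 2 * n * Real.log s + A := by
    intro y hy s hs
    rw [mem_ball, dist_eq_norm, not_lt] at hy
    have h1 : δ ^ 2 ≤ s := (pow_le_pow_left₀ hδ.le hy 2).trans ((sq_le_nsq _).trans hs)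
    have h2 := Real.log_le_log (by positivity) h1
    rw [hA]
    nlinarith
  obtain ⟨M, hM⟩ := hf.bdd
  have hg : Apx r (fun y => φ y + (L y : ℝ)) fun j y => f j y + Lj j y := by
    refine ⟨fun j => sp_add (hf.sp j) (sp_add (sp_const_mul (sp_log x (hε j))
      (by positivity)) (sp_const A)), ⟨M + (2 * n * (n * (2 * r) ^ 2 + 1) + A), fun j y hy => ?_⟩,
      ?_, ?_⟩
    · have h1 := Real.log_le_self (add_nonneg (nsq_nonneg (y - x)) (hε j).le)
      have h2 := hnb y hy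
      have h3 := hε1 j
      have h4 := hM j y hy
      simp only [hLj]
      nlinarith
    · filter_upwards [hf.le, hne] with y h1 h2 j
      rw [EReal.coe_add]
      refine add_le_add (h1 j) (EReal.coe_le_coe_iff.2 ?_)
      have h3 : 0 < nsq (y - x) := (pow_pos h2 2).trans_le (sq_le_nsq _)
      have h4 := Real.log_le_log h3 (le_add_of_nonneg_right (hε j).le)
      simp only [hLj]
      nlinarith
    · filter_upwards [hf.lim, hne] with y h1 h2 t ht
      have h3 : 0 < nsq (y - x) := (pow_pos h2 2).trans_le (sq_le_nsq _)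
      have h4 : φ y < ((t - L y : ℝ) : EReal) := by
        rw [EReal.coe_sub]
        exact EReal.lt_sub_iff_add_lt (Or.inl (EReal.coe_ne_bot _))
          (Or.inl (EReal.coe_ne_top _)) |>.2 ht
      obtain ⟨s, h5, h6⟩ := EReal.lt_iff_exists_real_btwn.1 h4
      have h7 : Tendsto (fun j => Lj j y) atTop (𝓝 (L y)) := by
        have := (tendsto_one_div_add_atTop_nhds_zero_nat (𝕜 := ℝ)).const_add (nsq (y - x))
        rw [add_zero] at this
        exact ((this.log h3.ne').const_mul _).add_const A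
      have h8 : L y < t - s := by
        have := EReal.coe_lt_coe_iff.1 h6
        linarith
      filter_upwards [h1 s h5, h7.eventually (gt_mem_nhds h8)] with j h9 h10
      linarith
  obtain ⟨Q, hQ, hstep⟩ := step hn (2 * n * (n * (2 * r) ^ 2) + A)
  have hfin' : ∫⁻ z in ball x δ, ‖(1 : ℂ)‖ₑ ^ 2 * EReal.exp (-φ z) ∂vb n r < ∞ := by
    simp only [enorm_one, one_pow, one_mul]
    exact ((lintegral_mono' (Measure.restrict_mono hδ' Measure.restrict_le_self)
      le_rfl)).trans_lt hfin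
  obtain ⟨h, hh, hb, hval⟩ := hstep hr hf hg (S := ball x δ) (T := ball x δ) (h := fun _ => 1)
    (by
      filter_upwards [ae_restrict_mem measurableSet_ball] with y hy
      refine add_le_add le_rfl (EReal.coe_le_coe_iff.2 ?_)
      have h1 := Real.log_le_self (nsq_nonneg (y - x))
      have h2 := hnb y hy
      simp only [hL]
      nlinarith)
    measurableSet_ball.nullMeasurableSet
    (fun j y _ h1 => by
      by_contra h2
      have := hoff y h2 _ (le_add_of_nonneg_right (hε j).le)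
      simp only [hLj] at h1
      linarith)
    (Eventually.of_forall fun y hy =>
      add_le_add le_rfl (EReal.coe_le_coe_iff.2 (hoff y hy _ le_rfl)))
    (differentiableOn_const _) hfin'
  refine ⟨h, hh, hb.trans_lt (ENNReal.mul_lt_top hQ.lt_top (by rwa [inter_self])),
    hval x hx (ball_mem_nhds x hδ) ⟨M + 2 * n * Real.log n + A, univ, univ_mem, ?_⟩⟩
  filter_upwards [hf.le, hne, ae_restrict_mem measurableSet_ball] with y h1 h2 hy _
  refine (add_le_add ((h1 0).trans (EReal.coe_le_coe_iff.2 (hM 0 y hy))) le_rfl).trans ?_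
  rw [← EReal.coe_add, EReal.coe_le_coe_iff]
  have h3 : 0 < nsq (y - x) := (pow_pos h2 2).trans_le (sq_le_nsq _)
  have h4 := Real.log_le_log h3 (nsq_le (y - x))
  rw [Real.log_mul hn'.ne' (by positivity), Real.log_pow] at h4
  simp only [hL]
  push_cast at h4
  nlinarith

/-- the weighted Bergman space -/
def BS (r : ℝ) (w : (Fin n → ℂ) → ℝ≥0∞) : Submodule ℂ ((Fin n → ℂ) → ℂ) where
  carrier := {h | DifferentiableOn ℂ h (ball 0 r) ∧ eLpNorm h 2 ((vb n r).withDensity w) < ∞}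
  add_mem' := fun {a b} ha hb => ⟨ha.1.add hb.1, (eLpNorm_add_le
    ((aem ha.1.continuousOn).aestronglyMeasurable.mono_ac (withDensity_absolutelyContinuous _ _))
    ((aem hb.1.continuousOn).aestronglyMeasurable.mono_ac (withDensity_absolutelyContinuous _ _))
    one_le_two).trans_lt (ENNReal.add_lt_top.2 ⟨ha.2, hb.2⟩)⟩
  zero_mem' := ⟨differentiableOn_const _, by simp⟩
  smul_mem' := fun c a ha => ⟨ha.1.const_smul c, by
    rw [eLpNorm_const_smul]; exact ENNReal.mul_lt_top enorm_lt_top ha.2⟩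

/-- its seminorm -/
def pn (r : ℝ) (w : (Fin n → ℂ) → ℝ≥0∞) : Seminorm ℂ (BS r w) :=
  Seminorm.of (fun h => (eLpNorm h.val 2 ((vb n r).withDensity w)).toReal)
    (fun a b => by
      rw [← ENNReal.toReal_add a.2.2.ne b.2.2.ne]
      exact ENNReal.toReal_mono (ENNReal.add_ne_top.2 ⟨a.2.2.ne, b.2.2.ne⟩) (eLpNorm_add_le
        ((aem a.2.1.continuousOn).aestronglyMeasurable.mono_ac
          (withDensity_absolutelyContinuous _ _))
        ((aem b.2.1.continuousOn).aestronglyMeasurable.mono_ac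
          (withDensity_absolutelyContinuous _ _)) one_le_two))
    (fun c a => by
      rw [Submodule.coe_smul, eLpNorm_const_smul, ENNReal.toReal_mul, toReal_enorm])

theorem eLpNorm_sq {w : (Fin n → ℂ) → ℝ≥0∞} (hw : AEMeasurable w (vb n r))
    {h : (Fin n → ℂ) → ℂ} (hh : DifferentiableOn ℂ h (ball 0 r)) :
    eLpNorm h 2 ((vb n r).withDensity w) ^ 2 = ∫⁻ z, ‖h z‖ₑ ^ 2 * w z ∂vb n r := by
  have h1 := eLpNorm_nnreal_pow_eq_lintegral (μ := (vb n r).withDensity w) (f := h) (p := 2)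
    two_ne_zero
  simp only [ENNReal.coe_ofNat, NNReal.coe_ofNat, ENNReal.rpow_ofNat] at h1
  rw [h1, lintegral_withDensity_eq_lintegral_mul₀ hw ((aem hh.continuousOn).enorm.pow_const 2)]
  exact lintegral_congr fun z => mul_comm _ _

theorem mem_BS {w : (Fin n → ℂ) → ℝ≥0∞} (hw : AEMeasurable w (vb n r))
    {h : (Fin n → ℂ) → ℂ} (hh : DifferentiableOn ℂ h (ball 0 r))
    (hf : ∫⁻ z, ‖h z‖ₑ ^ 2 * w z ∂vb n r < ∞) : h ∈ BS r w := by
  refine ⟨hh, lt_top_iff_ne_top.2 fun h0 => ?_⟩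
  rw [← eLpNorm_sq hw hh, h0] at hf
  simp at hf

theorem ofReal_pn_sq {w : (Fin n → ℂ) → ℝ≥0∞} (hw : AEMeasurable w (vb n r)) (h : BS r w) :
    ENNReal.ofReal (pn r w h ^ 2) = ∫⁻ z, ‖h.val z‖ₑ ^ 2 * w z ∂vb n r := by
  rw [← eLpNorm_sq hw h.2.1, ENNReal.ofReal_pow (apply_nonneg _ _)]
  congr 1
  exact ENNReal.ofReal_toReal h.2.2.ne

theorem pn_le {w : (Fin n → ℂ) → ℝ≥0∞} (hw : AEMeasurable w (vb n r)) {h : BS r w} {ε : ℝ}
    (hε : 0 ≤ ε) :
    pn r w h ≤ ε ↔ ∫⁻ z, ‖h.val z‖ₑ ^ 2 * w z ∂vb n r ≤ ENNReal.ofReal (ε ^ 2) := by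
  rw [← ofReal_pn_sq hw, ENNReal.ofReal_le_ofReal_iff (by positivity),
    pow_le_pow_iff_left₀ (apply_nonneg _ _) hε two_ne_zero]

theorem lint_le {w : (Fin n → ℂ) → ℝ≥0∞} {M : ℝ} (hM : ∀ᵐ z ∂vb n r, ex M ≤ w z)
    (h : (Fin n → ℂ) → ℂ) : ∫⁻ z in ball (0 : Fin n → ℂ) r, ‖h z‖ₑ ^ 2 ≤
      ex (-M) * ∫⁻ z, ‖h z‖ₑ ^ 2 * w z ∂vb n r := by
  rw [← lintegral_const_mul' _ _ (ex_ne_top _)]
  refine lintegral_mono_ae (hM.mono fun z hz => ?_)
  rw [mul_left_comm]
  refine le_trans (le_of_eq ?_) (mul_le_mul_right (mul_le_mul_right hz _) _)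
  rw [← ex_add, neg_add_cancel, ex_zero, mul_one]

theorem BS_complete {w : (Fin n → ℂ) → ℝ≥0∞} (hw : AEMeasurable w (vb n r)) {M : ℝ}
    (hM : ∀ᵐ z ∂vb n r, ex M ≤ w z) (u : ℕ → BS r w)
    (hu : ∀ ε > 0, ∃ N, ∀ m ≥ N, ∀ k ≥ N, pn r w (u m - u k) < ε) :
    ∃ v, Tendsto (fun m => pn r w (u m - v)) atTop (𝓝 0) := by
  obtain ⟨N0, hN0⟩ := hu 1 one_pos
  obtain ⟨J, F, hJ, hF, hlim⟩ := seq_montel (F := fun m => (u m).val) (fun m => (u m).2.1)
    (K := ex (-M) * ENNReal.ofReal ((pn r w (u N0) + 1) ^ 2))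
    (ENNReal.mul_ne_top (ex_ne_top _) ENNReal.ofReal_ne_top) (by
      filter_upwards [eventually_ge_atTop N0] with m hm
      refine (lint_le hM _).trans (mul_le_mul_right ((pn_le hw (by positivity)).1 ?_) _)
      have h1 := map_add_le_add (pn r w) (u N0) (u m - u N0)
      rw [add_sub_cancel] at h1
      linarith [hN0 m hm N0 le_rfl])
  have key : ∀ ε > 0, ∃ N, ∀ m ≥ N,
      ∫⁻ z, ‖(u m).val z - F z‖ₑ ^ 2 * w z ∂vb n r ≤ ENNReal.ofReal (ε ^ 2) := by
    intro ε hε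
    obtain ⟨N, hN⟩ := hu ε hε
    refine ⟨N, fun m hm => fatou (u := fun k y => (u m).val y - (u (J k)).val y) (W := fun _ => w)
      (fun k => aem ((u m).2.1.continuousOn.sub (u (J k)).2.1.continuousOn)) (fun _ => hw) ?_
      (Eventually.of_forall fun y c hc => Eventually.of_forall fun _ => hc.le) fun L' hL' => ?_⟩
    · filter_upwards [ae_restrict_mem measurableSet_ball] with y hy
      exact (hlim y hy).const_sub _
    · filter_upwards [hJ.eventually (eventually_ge_atTop N)] with k hk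
      have := (pn_le hw hε.le).1 (hN m hm _ hk).le
      simp only [Submodule.coe_sub, Pi.sub_apply] at this
      exact this.trans hL'.le
  obtain ⟨N, hN⟩ := key 1 one_pos
  have h1 : (u N).val - F ∈ BS r w :=
    mem_BS hw ((u N).2.1.sub hF) ((hN N le_rfl).trans_lt ENNReal.ofReal_lt_top)
  have h2 : F ∈ BS r w := by simpa using (BS r w).sub_mem (u N).2 h1
  refine ⟨⟨F, h2⟩, tendsto_order.2 ⟨fun a ha => Eventually.of_forall fun m =>
    ha.trans_le (apply_nonneg _ _), fun a ha => ?_⟩⟩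
  obtain ⟨N', hN'⟩ := key (a / 2) (by positivity)
  filter_upwards [eventually_ge_atTop N'] with m hm
  refine lt_of_le_of_lt ((pn_le hw (by positivity)).2 ?_) (half_lt_self ha)
  simp only [Submodule.coe_sub, Pi.sub_apply]
  exact hN' m hm

theorem BS_eval {w : (Fin n → ℂ) → ℝ≥0∞} (hw : AEMeasurable w (vb n r)) {M : ℝ}
    (hM : ∀ᵐ z ∂vb n r, ex M ≤ w z) {x : Fin n → ℂ} (hx : x ∈ ball (0 : Fin n → ℂ) r) :
    ∃ C : ℝ, ∀ h : BS r w, ‖h.val x‖ ≤ C * pn r w h := by
  obtain ⟨δ, hδ, hsub⟩ := Metric.nhds_basis_closedBall.mem_iff.1 (isOpen_ball.mem_nhds hx)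
  set v := volume (closedBall x δ) with hv
  have hv0 : v ≠ 0 := (measure_closedBall_pos volume _ hδ).ne'
  have hvt : v ≠ ⊤ := measure_closedBall_lt_top.ne
  have hc : v⁻¹ * ex (-M) ≠ ⊤ := ENNReal.mul_ne_top (ENNReal.inv_ne_top.2 hv0) (ex_ne_top _)
  refine ⟨Real.sqrt (v⁻¹ * ex (-M)).toReal, fun h => ?_⟩
  have h1 := ((Montel297.volume_mul_enorm_sq_le isOpen_ball h.2.1 hsub).trans
    (lintegral_mono_set hsub)).trans (lint_le hM _)
  have h2 := mul_le_mul_right h1 v⁻¹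
  rw [← mul_assoc, ENNReal.inv_mul_cancel hv0 hvt, one_mul, ← mul_assoc, ← ofReal_pn_sq hw,
    enorm_sq_eq, ← ENNReal.ofReal_toReal hc, ← ENNReal.ofReal_mul ENNReal.toReal_nonneg,
    ENNReal.ofReal_le_ofReal_iff (by positivity)] at h2
  refine (pow_le_pow_iff_left₀ (norm_nonneg _) (by positivity) two_ne_zero).1 ?_
  rwa [mul_pow, Real.sq_sqrt ENNReal.toReal_nonneg]

/-- **the wandering lemma on a polydisc** -/
theorem wand_apx (hn : 0 < n) (hr : 0 < r) {φ : (Fin n → ℂ) → EReal}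
    {f : ℕ → (Fin n → ℂ) → ℝ} (hf : Apx r φ f) {G : ℕ → (Fin n → ℂ) → EReal}
    {g : ℕ → ℕ → (Fin n → ℂ) → ℝ} (hg : ∀ k, Apx r (G k) (g k)) {x : ℕ → Fin n → ℂ}
    (hxB : ∀ k, x k ∈ ball (0 : Fin n → ℂ) r) {z : Fin n → ℂ} (hz : z ∈ ball (0 : Fin n → ℂ) r)
    (hx : Tendsto x atTop (𝓝 z)) {C : ℝ} (h1 : ∀ k, ∀ᵐ y ∂vb n r, G k y ≤ φ y + C)
    {T : ℕ → Set (Fin n → ℂ)} (hT : ∀ k, NullMeasurableSet (T k) (vb n r))
    (h2 : ∀ k, ∀ᵐ y ∂vb n r, y ∉ T k → φ y + (2 : ℝ) ≤ G k y)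
    (h3 : ∀ᵐ y ∂vb n r, ∀ᶠ k in atTop, y ∉ T k)
    (h4 : ∀ k, ∃ C' : ℝ, ∃ U ∈ 𝓝 (x k), ∀ᵐ y ∂vb n r, y ∈ U →
      G k y ≤ ((4 * n * Real.log ‖y - x k‖ + C' : ℝ) : EReal))
    (h5 : ∀ k, ∃ V ∈ 𝓝 (x k), ∫⁻ y in V, EReal.exp (-φ y) < ∞) : False := by
  set w : (Fin n → ℂ) → ℝ≥0∞ := fun y => EReal.exp (-φ y) with hw
  have hwm : AEMeasurable w (vb n r) := hf.aem
  obtain ⟨M, hM⟩ := hf.bdd
  have hM' : ∀ᵐ y ∂vb n r, ex M ≤ w y := by
    filter_upwards [hf.le, ae_restrict_mem measurableSet_ball] with y hy1 hy2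
    exact ex_le_wt ((hy1 0).trans (EReal.coe_le_coe_iff.2 (hM 0 y hy2)))
  obtain ⟨e, he⟩ := Ubp.exists_fin_bound (z := z) (fun h : BS r w => h.val) fun h =>
    R266.SCV.analyticOnNhd_of_differentiableOn isOpen_ball h.2.1 z hz
  obtain ⟨Q, hQ, hstep⟩ := step hn C
  refine Ubp.ubp (pn r w) (BS_complete hwm hM')
    (fun k => (LinearMap.proj (x k)).comp (BS r w).subtype) (fun k => BS_eval hwm hM' (hxB k))
    (fun k => ?_) (fun v ε hε => ?_) e fun v => (he v).imp fun m hm => hx.eventually hm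
  · obtain ⟨V, hV, hfin⟩ := h5 k
    obtain ⟨h, hh, hb, h0⟩ := bombieri hn hr hf (hxB k) hV hfin
    exact ⟨⟨h, mem_BS hwm hh hb⟩, by simp [h0]⟩
  · have hfin : ∫⁻ y, ‖v.val y‖ₑ ^ 2 * w y ∂vb n r < ∞ := by
      rw [← ofReal_pn_sq hwm]; exact ENNReal.ofReal_lt_top
    have hpm : AEMeasurable (fun y => ‖v.val y‖ₑ ^ 2 * w y) (vb n r) :=
      ((aem v.2.1.continuousOn).enorm.pow_const 2).mul hwm
    have t1 := tendsto_lintegral_of_dominated_convergence' (f := fun _ => 0) _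
      (fun k => hpm.indicator₀ (hT k))
      (fun k => Eventually.of_forall fun y => indicator_le_self _ _ y) hfin.ne
      (h3.mono fun y hy => tendsto_const_nhds.congr'
        (hy.mono fun k hk => (indicator_of_notMem hk _).symm))
    have t2 := ENNReal.Tendsto.const_mul (a := Q) t1 (Or.inr hQ)
    rw [lintegral_zero, mul_zero] at t2
    filter_upwards [t2.eventually (gt_mem_nhds (ENNReal.ofReal_pos.2 (pow_pos hε 2)))] with k hk
    obtain ⟨V, hV, hb, hval⟩ := hstep hr hf (hg k) (h1 k) (S := univ) (hT k)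
      (fun _ _ _ _ => mem_univ _) (h2 k) v.2.1 (by rwa [Measure.restrict_univ])
    rw [univ_inter, ← lintegral_indicator₀ (hT k)] at hb
    have hb' := hb.trans hk.le
    refine ⟨v - ⟨V, mem_BS hwm hV (hb'.trans_lt ENNReal.ofReal_lt_top)⟩, ?_, ?_⟩
    · simp [hval _ (hxB k) univ_mem (h4 k)]
    · rw [sub_sub_cancel]
      exact (pn_le hwm hε.le).2 hb'

end Crest.Agent.X261.Wand.Core
end
end

-- ▼ part X261/Wand/Main

/-!
# Row 261, package WAND (helper57), file `Main`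

* `exists_apx` : psh functions near a closed polydisc have smooth psh approximants;
* `wand` : **the wandering lemma**.  There are no psh functions `G k ≤ φ + C` with logarithmic
  poles at points `x k → z` where `e^{-Nφ}` is integrable, such that the sets `{G k < φ - a}`
  escape almost everywhere.
-/

set_option autoImplicit false

open Set Filter Topology MeasureTheory Metric
open scoped ENNReal

noncomputable section

namespace Crest.Agent.X261.Wand

open Crest.Agent.R271.Ball399 Crest.Agent.X261.Psh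
open Crest.Agent.X261.Wand.Solve Crest.Agent.X261.Wand.Step Crest.Agent.X261.Wand.Core

section pi

variable {n : ℕ}

theorem lev0_nonneg {U : Set (Fin n → ℂ)} (hU : IsOpen U) {f : (Fin n → ℂ) → ℝ}
    (hs : ContDiffOn ℝ (⊤ : ℕ∞) f U) (hp : IsPsh U fun x => (f x : EReal)) {z : Fin n → ℂ}
    (hz : z ∈ U) (w : Fin n → ℂ) : 0 ≤ lev0 f z w := by
  have h2 : ContDiffAt ℝ 2 f z := (hs.contDiffAt (hU.mem_nhds hz)).of_le (by norm_cast)
  have h3 : DifferentiableAt ℝ (fderiv ℝ f) z :=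
    (h2.fderiv_right (m := 1) (by norm_num)).differentiableAt (by simp)
  have key : ∀ v, fderiv ℝ (fun y => fderiv ℝ f y v) z v = fderiv ℝ (fderiv ℝ f) z v v := by
    intro v
    rw [fderiv_clm_apply h3 (differentiableAt_const v)]
    simp
  obtain ⟨δ, hδ, hsub⟩ := Metric.isOpen_iff.1 hU z hz
  have h4 := R273.Reg_844.lap_nonneg h2 (v := w) (by
    have hr1 : ∀ᶠ r : ℝ in 𝓝[>] 0, r < δ / (‖w‖ + 1) :=
      nhdsWithin_le_nhds (gt_mem_nhds (by positivity))
    filter_upwards [hr1, self_mem_nhdsWithin] with r hr2 hr0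
    have hr0 : 0 < r := hr0
    rw [R275.FL606.av_eq_circleAverage]
    refine (isPsh_coe_iff hs.continuousOn).1 hp z _ fun t ht => hsub ?_
    have h5 : r * (‖w‖ + 1) < δ := (lt_div_iff₀ (by positivity)).1 hr2
    rw [mem_ball, dist_eq_norm, add_sub_cancel_left, norm_smul, norm_smul, Real.norm_eq_abs,
      abs_of_pos hr0]
    calc ‖t‖ * (r * ‖w‖) ≤ 1 * (r * ‖w‖) := by gcongr
      _ < δ := by nlinarith)
  rw [lev0, key, key]
  linarith

theorem exists_apx {U : Set (Fin n → ℂ)} (hU : IsOpen U) {u : (Fin n → ℂ) → EReal}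
    (hu : IsPsh U u) {r : ℝ} (hr : closedBall 0 r ⊆ U) : ∃ f, Apx r u f := by
  obtain ⟨V, hV, hKV, -, f, h1, h2, h3, h4⟩ := hu.exists_smooth hU (isCompact_closedBall 0 r) hr
  have hB : ball (0 : Fin n → ℂ) r ⊆ V := ball_subset_closedBall.trans hKV
  obtain ⟨M, hM⟩ := (isCompact_closedBall 0 r).bddAbove_image ((h1 0).continuousOn.mono hKV)
  refine ⟨f, fun j => ⟨(h1 j).mono hB, fun z hz => lev0_nonneg hV (h1 j) (h2 j) (hB hz)⟩,
    ⟨M, fun j z hz => (h3 z (hB hz) (Nat.zero_le j)).trans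
      (hM (mem_image_of_mem _ (ball_subset_closedBall hz)))⟩, ?_, ?_⟩
  · filter_upwards [ae_restrict_mem measurableSet_ball] with z hz j
    exact Antitone.le_of_tendsto (f := fun k => (f k z : EReal))
      (fun a b h => EReal.coe_le_coe_iff.2 (h3 z (hB hz) h)) (h4 z (hB hz)) j
  · filter_upwards [ae_restrict_mem measurableSet_ball] with z hz t ht
    exact ((h4 z (hB hz)).eventually (gt_mem_nhds ht)).mono fun j hj =>
      EReal.coe_lt_coe_iff.1 hj

/-- **Bombieri's lemma** for psh weights near a closed polydisc -/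
theorem exists_hol_eq_one (hn : 0 < n) {U : Set (Fin n → ℂ)} (hU : IsOpen U)
    {u : (Fin n → ℂ) → EReal} (hu : IsPsh U u) {r : ℝ} (hr : closedBall 0 r ⊆ U)
    {x : Fin n → ℂ} (hx : x ∈ ball (0 : Fin n → ℂ) r) {V : Set (Fin n → ℂ)} (hV : V ∈ 𝓝 x)
    (hfin : ∫⁻ z in V, EReal.exp (-u z) < ∞) :
    ∃ h : (Fin n → ℂ) → ℂ, DifferentiableOn ℂ h (ball 0 r) ∧
      ∫⁻ z in ball (0 : Fin n → ℂ) r, ‖h z‖ₑ ^ 2 * EReal.exp (-u z) < ∞ ∧ h x = 1 := by
  obtain ⟨f, hf⟩ := exists_apx hU hu hr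
  exact bombieri hn (pos_of_mem_ball hx) hf hx hV hfin

theorem wand_pi (hn : 0 < n) {U : Set (Fin n → ℂ)} (hU : IsOpen U) (hz : (0 : Fin n → ℂ) ∈ U)
    {φ : (Fin n → ℂ) → EReal} (hφ : IsPsh U φ) {G : ℕ → (Fin n → ℂ) → EReal}
    (hG : ∀ k, IsPsh U (G k)) {x : ℕ → Fin n → ℂ} (hx : Tendsto x atTop (𝓝 0)) {C a : ℝ}
    (h1 : ∀ k, ∀ᵐ y, y ∈ U → G k y ≤ φ y + C)
    (h2 : ∀ᵐ y, y ∈ U → ∀ᶠ k in atTop, φ y ≤ G k y + a)
    (h3 : ∀ k, ∃ C' : ℝ, ∀ᶠ y in 𝓝[≠] (x k),
      G k y ≤ ((4 * n * Real.log ‖y - x k‖ + C' : ℝ) : EReal))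
    (h4 : ∀ k, ∃ V ∈ 𝓝 (x k), ∫⁻ y in V, EReal.exp (-φ y) < ∞) : False := by
  obtain ⟨r, hr, hsub⟩ := nhds_basis_closedBall.mem_iff.1 (hU.mem_nhds hz)
  have hB : ball (0 : Fin n → ℂ) r ⊆ U := ball_subset_closedBall.trans hsub
  obtain ⟨k0, hk0⟩ := eventually_atTop.1 (hx.eventually (ball_mem_nhds 0 hr))
  obtain ⟨f, hf⟩ := exists_apx hU hφ hsub
  have hG' : ∀ k, IsPsh U fun y => G (k + k0) y + ((a + 2 : ℝ) : EReal) := fun k =>
    (hG _).add_const _
  choose g hg using fun k => exists_apx hU (hG' k) hsub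
  have : Nonempty (Fin n) := ⟨⟨0, hn⟩⟩
  refine wand_apx hn hr hf hg (x := fun k => x (k + k0)) (fun k => hk0 _ (Nat.le_add_left _ _))
    (mem_ball_self hr) (hx.comp (tendsto_add_atTop_nat k0)) (C := C + (a + 2))
    (T := fun k => {y | G (k + k0) y + ((a + 2 : ℝ) : EReal) < φ y + (2 : ℝ)})
    (fun k => ?_) (fun k => ?_) (fun k => Eventually.of_forall fun y hy => not_lt.1 hy) ?_
    (fun k => ?_) fun k => h4 _
  · filter_upwards [ae_restrict_of_ae (h1 (k + k0)), ae_restrict_mem measurableSet_ball]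
      with y hy hyB
    rw [EReal.coe_add C, ← add_assoc]
    exact add_le_add (hy (hB hyB)) le_rfl
  · exact nullMeasurableSet_lt ((hG' k).aemeasurable hU volume measurableSet_ball hB)
      ((hφ.add_const 2).aemeasurable hU volume measurableSet_ball hB)
  · filter_upwards [ae_restrict_of_ae h2, ae_restrict_mem measurableSet_ball] with y hy hyB
    filter_upwards [(tendsto_add_atTop_nat k0).eventually (hy (hB hyB))] with k hk
    rw [not_lt, EReal.coe_add a, ← add_assoc]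
    exact add_le_add hk le_rfl
  · obtain ⟨C', hC'⟩ := h3 (k + k0)
    refine ⟨C' + (a + 2), _, eventually_nhdsWithin_iff.1 hC', ?_⟩
    filter_upwards [ae_restrict_of_ae (compl_mem_ae_iff.2 (measure_singleton (x (k + k0))))]
      with y hy hy'
    rw [← add_assoc, EReal.coe_add _ (a + 2)]
    exact add_le_add (hy' hy) le_rfl

end pi

theorem mul_le_mul_add {N C : ℝ} (hN : 0 ≤ N) {a b : EReal} (h : a ≤ b + C) :
    (N : EReal) * a ≤ N * b + ((N * C : ℝ) : EReal) := by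
  rw [EReal.coe_mul, ← EReal.left_distrib_of_nonneg_of_ne_top (EReal.coe_nonneg.2 hN)
    (EReal.coe_ne_top N)]
  exact mul_le_mul_of_nonneg_left h (EReal.coe_nonneg.2 hN)

/-- **the wandering lemma** -/
theorem wand {E : Type*} [NormedAddCommGroup E] [NormedSpace ℂ E] [FiniteDimensional ℂ E]
    [Nontrivial E] [MeasurableSpace E] [BorelSpace E] (μ : Measure E) [μ.IsAddHaarMeasure]
    {U : Set E} (hU : IsOpen U) {z : E} (hz : z ∈ U) {φ : E → EReal} (hφ : IsPsh U φ)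
    {G : ℕ → E → EReal} (hG : ∀ k, IsPsh U (G k)) {x : ℕ → E} (hx : Tendsto x atTop (𝓝 z))
    {C a c N : ℝ} (hN : 0 ≤ N) (hc : 4 * (Module.finrank ℂ E : ℝ) ≤ N * c)
    (h1 : ∀ k, ∀ᵐ y ∂μ, y ∈ U → G k y ≤ φ y + C)
    (h2 : ∀ᵐ y ∂μ, y ∈ U → ∀ᶠ k in atTop, φ y ≤ G k y + a)
    (h3 : ∀ k, ∃ C' : ℝ, ∀ᶠ y in 𝓝[≠] (x k),
      G k y ≤ ((c * Real.log ‖y - x k‖ + C' : ℝ) : EReal))
    (h4 : ∀ k, ∃ V ∈ 𝓝 (x k), ∫⁻ y in V, EReal.exp (-(N * φ y)) ∂μ < ∞) : False := by
  set n := Module.finrank ℂ E with hn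
  have hn0 : 0 < n := Module.finrank_pos
  set L : (Fin n → ℂ) ≃L[ℂ] E := ContinuousLinearEquiv.ofFinrankEq (by simp [hn]) with hL
  set A : (Fin n → ℂ) ≃ₜ E := L.toHomeomorph.trans (Homeomorph.addLeft z) with hA
  have hAa : ∀ y, A y = z + L y := fun _ => rfl
  have : ProperSpace E := FiniteDimensional.proper ℂ E
  obtain ⟨s, hs⟩ : ∃ s : NNReal, Measure.map A volume = s • μ := by
    have e : (A : (Fin n → ℂ) → E) = (fun y => z + y) ∘ L := rfl
    rw [e, ← Measure.map_map (measurable_const_add z) L.continuous.measurable,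
      map_add_left_eq_self]
    exact ⟨_, Measure.isAddLeftInvariant_eq_smul _ μ⟩
  have hae : ∀ {p : E → Prop}, (∀ᵐ y ∂μ, p y) → ∀ᵐ y, p (A y) := fun h =>
    ae_of_ae_map A.continuous.aemeasurable (hs ▸ Measure.ae_smul_measure h s)
  have hpsh : ∀ {u : E → EReal}, IsPsh U u → IsPsh (A ⁻¹' U) fun y => (N : EReal) * u (A y) :=
    fun h => (h.comp_affine (L : (Fin n → ℂ) →L[ℂ] E) z).smul hN
  refine wand_pi hn0 (hU.preimage A.continuous) (by simpa [hAa] using hz) (hpsh hφ)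
    (fun k => hpsh (hG k)) (x := fun k => A.symm (x k)) ?_ (C := N * C) (a := N * a)
    (fun k => (hae (h1 k)).mono fun y hy hyU => mul_le_mul_add hN (hy hyU))
    ((hae h2).mono fun y hy hyU => (hy hyU).mono fun k hk => mul_le_mul_add hN hk)
    (fun k => ?_) fun k => ?_
  · have := (A.symm.continuous.tendsto z).comp hx
    rwa [show A.symm z = 0 from A.symm_apply_eq.2 (by simp [hAa])] at this
  · obtain ⟨C', hC'⟩ := h3 k
    set K : ℝ := ‖(L : (Fin n → ℂ) →L[ℂ] E)‖ + 1 with hK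
    have hK0 : 0 < K := by positivity
    refine ⟨4 * n * Real.log K + N * C', ?_⟩
    have t1 : Tendsto A (𝓝[≠] (A.symm (x k))) (𝓝[≠] (x k)) := by
      refine tendsto_nhdsWithin_iff.2 ⟨?_, ?_⟩
      · simpa using (A.continuous.tendsto (A.symm (x k))).mono_left nhdsWithin_le_nhds
      · filter_upwards [self_mem_nhdsWithin] with y hy h0
        exact hy (A.eq_symm_apply.2 h0)
    filter_upwards [t1.eventually hC', t1.eventually self_mem_nhdsWithin,
      t1.eventually (nhdsWithin_le_nhds (ball_mem_nhds (x k) one_pos))] with y hy1 hy2 hy3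
    refine (coe_mul_le hN hy1).trans (EReal.coe_le_coe_iff.2 ?_)
    have e : A y - x k = L (y - A.symm (x k)) := by
      conv_lhs => rw [← A.apply_symm_apply (x k)]
      rw [hAa, hAa, map_sub, add_sub_add_left_eq_sub]
    have p1 : 0 < ‖A y - x k‖ := norm_pos_iff.2 (sub_ne_zero.2 hy2)
    have p2 : ‖A y - x k‖ ≤ K * ‖y - A.symm (x k)‖ := by
      rw [e]
      refine ((L : (Fin n → ℂ) →L[ℂ] E).le_opNorm _).trans ?_
      gcongr
      linarith
    have p3 : 0 < ‖y - A.symm (x k)‖ := pos_of_mul_pos_right (p1.trans_le p2) hK0.le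
    have p4 := Real.log_le_log p1 p2
    rw [Real.log_mul hK0.ne' p3.ne'] at p4
    have p5 : Real.log ‖A y - x k‖ ≤ 0 :=
      Real.log_nonpos p1.le (le_of_lt (by simpa [dist_eq_norm] using hy3))
    have p6 : (0 : ℝ) ≤ n := Nat.cast_nonneg n
    nlinarith [mul_le_mul_of_nonpos_right hc p5]
  · obtain ⟨V, hV, hfin⟩ := h4 k
    refine ⟨A ⁻¹' V, A.continuous.continuousAt.preimage_mem_nhds (by simpa using hV), ?_⟩
    have e := A.measurableEmbedding.lintegral_map (μ := volume.restrict (A ⁻¹' V))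
      fun y => EReal.exp (-(N * φ y))
    rw [← e, ← A.measurableEmbedding.restrict_map, hs, Measure.restrict_smul,
      lintegral_smul_measure]
    exact ENNReal.mul_lt_top ENNReal.coe_lt_top hfin

end Crest.Agent.X261.Wand
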